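import Vale.Agent.P092.H76.DichoC

/-!
P092 (helper21), all `t`: the type dichotomy of helper76 for families of vectors: the symmetry under
inversion holds for one finite family, the invariance of the vector state for another one.
-/

set_option linter.all false

open scoped InnerProductSpace Pointwise
open Filter Topology ContinuousLinearMap

namespace Vale.Agent.P092.H21

open Vale.Agent.P092.H859.CL hiding cfc
open Vale.Agent.P092.H553 (ind ind_nonneg ind_le_one abs_ind_le ind_pos ind_neg)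
open Vale.Agent.P092.H76.Pur
open Vale.Agent.P092.H76.Dicho

section abs

variable {G Γ X K κ : Type} [Group G] [Group Γ] [TopologicalSpace X] [CompactSpace X]
  [NormedAddCommGroup K] [InnerProductSpace ℂ K] [CompleteSpace K] [Fintype κ]

/-- The state of a finite family is `lam`-invariant on the operators commuting with `π`, `W`. -/
def InvF (π : G →* (K →L[ℂ] K)) (lam : Γ →* (K →L[ℂ] K)) (W : Set (K →L[ℂ] K)) (Ω : κ → K) :
    Prop :=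
  ∀ T : K →L[ℂ] K, (∀ w ∈ W, T * w = w * T) → (∀ g, T * π g = π g * T) → ∀ γ,
    ∑ i, ⟪Ω i, (lam γ * T * lam γ⁻¹) (Ω i)⟫_ℂ = ∑ i, ⟪Ω i, T (Ω i)⟫_ℂ

/-- There is no covariant family which commutes with everything. -/
def NoC (act : Γ → X → X) (π : G →* (K →L[ℂ] K)) (lam : Γ →* (K →L[ℂ] K))
    (W : Set (K →L[ℂ] K)) : Prop :=
  ∀ (E : C(X, ℂ) →ₗ[ℂ] (K →L[ℂ] K)), UCP E → ∀ c : ℂ, c ≠ 0 → E 1 = c • 1 → Cov act lam E →
    (∀ f, ∀ w ∈ W, E f * w = w * E f) → (∀ f g, E f * π g = π g * E f) → False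

theorem sum_inner_self {Ω : κ → K} (hΩ : ∑ i, ‖Ω i‖ ^ 2 = 1) : ∑ i, ⟪Ω i, Ω i⟫_ℂ = 1 := by
  have h1 : ∀ i, ⟪Ω i, Ω i⟫_ℂ = ((‖Ω i‖ ^ 2 : ℝ) : ℂ) := fun i => by
    rw [inner_self_eq_norm_sq_to_K]; norm_cast
  simp only [h1]
  rw [← Complex.ofReal_sum, hΩ, Complex.ofReal_one]

/-- **[D-CONST]** for families. -/
theorem noC_of {act : Γ → X → X} (hNI : NIS act) {π : G →* (K →L[ℂ] K)}
    {lam : Γ →* (K →L[ℂ] K)} {W : Set (K →L[ℂ] K)} {Ω : κ → K} (hΩ : ∑ i, ‖Ω i‖ ^ 2 = 1)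
    (hinv : InvF π lam W Ω) : NoC act π lam W := by
  intro E hE c hc h1 hcov hW hπ
  have hΩ1 := sum_inner_self hΩ
  have e1 : ∑ i, ⟪Ω i, E 1 (Ω i)⟫_ℂ = c := by
    rw [h1]
    simp only [ContinuousLinearMap.smul_apply, inner_smul_right]
    change ∑ i, c * ⟪Ω i, Ω i⟫_ℂ = c
    rw [← Finset.mul_sum, hΩ1, mul_one]
  have hcr : 0 ≤ c.re ∧ c.im = 0 := by
    constructor
    · rw [← e1, Complex.re_sum]
      refine Finset.sum_nonneg fun i _ => ?_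
      have e2 := hE.sch 1 (Ω i)
      rw [star_one, one_mul] at e2
      exact (sq_nonneg _).trans e2
    · have e3 := hE.adj 1
      rw [star_one] at e3
      have e4 : ∀ i, (⟪Ω i, E 1 (Ω i)⟫_ℂ).im = 0 := fun i => by
        have e5 : ⟪Ω i, E 1 (Ω i)⟫_ℂ = (starRingEnd ℂ) ⟪Ω i, E 1 (Ω i)⟫_ℂ := by
          rw [inner_conj_symm]
          nth_rewrite 1 [← e3]
          rw [ContinuousLinearMap.adjoint_inner_right]
        exact Complex.conj_eq_iff_im.1 e5.symm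
      rw [← e1, Complex.im_sum]
      exact Finset.sum_eq_zero fun i _ => e4 i
  obtain ⟨φ, hφ⟩ : ∃ φ : C(X, ℂ) →ₗ[ℂ] ℂ, ∀ f, φ f = c⁻¹ * ∑ i, ⟪Ω i, E f (Ω i)⟫_ℂ := by
    refine ⟨{ toFun := fun f => c⁻¹ * ∑ i, ⟪Ω i, E f (Ω i)⟫_ℂ, map_add' := fun f g => ?_,
              map_smul' := fun a f => ?_ }, fun f => rfl⟩
    · rw [← mul_add, ← Finset.sum_add_distrib]
      congr 1
      refine Finset.sum_congr rfl fun i _ => ?_
      rw [map_add, ContinuousLinearMap.add_apply, inner_add_right]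
    · have e9 : ∑ i, ⟪Ω i, E (a • f) (Ω i)⟫_ℂ = a * ∑ i, ⟪Ω i, E f (Ω i)⟫_ℂ := by
        rw [Finset.mul_sum]
        refine Finset.sum_congr rfl fun i _ => ?_
        rw [map_smul, ContinuousLinearMap.smul_apply, inner_smul_right]
      rw [e9, RingHom.id_apply, smul_eq_mul]
      ring
  refine hNI φ (fun f => ?_) ?_ (fun γ f f' hff' => ?_)
  · rw [hφ]
    have e2 : c⁻¹ = ((c.re⁻¹ : ℝ) : ℂ) := by
      rw [Complex.ofReal_inv]
      congr 1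
      exact Complex.ext (by simp) (by simp [hcr.2])
    rw [e2, Complex.re_ofReal_mul, Complex.re_sum]
    exact mul_nonneg (inv_nonneg.2 hcr.1)
      (Finset.sum_nonneg fun i _ => (sq_nonneg _).trans (hE.sch f (Ω i)))
  · rw [hφ, e1, inv_mul_cancel₀ hc]
  · rw [hφ, hφ, ← hcov γ f f' hff', hinv (E f) (hW f) (hπ f) γ]

/-- **[D-PUR]** The two limit families of a wall direction and its inverse are not both nonzero. -/
theorem pur' {act : Γ → X → X} {π : G →* (K →L[ℂ] K)}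
    {lam : Γ →* (K →L[ℂ] K)} {W : Set (K →L[ℂ] K)} (hNC : NoC act π lam W) {Q Q' : Set G}
    (hQ : Subgroup.closure (Q ∪ Q') = ⊤)
    {E E' : C(X, ℂ) →ₗ[ℂ] (K →L[ℂ] K)} (hE : UCP E) (hE' : UCP E')
    (hsep : ∀ f g : C(X, ℂ), Disjoint (tsupport f) (tsupport g) → E f * E' g = 0)
    {c c' : ℂ} (h1 : E 1 = c • 1) (h1' : E' 1 = c' • 1) (hcov : Cov act lam E)
    (hW : ∀ f, ∀ w ∈ W, E f * w = w * E f)
    (hπ : ∀ f, ∀ g ∈ Q, E f * π g = π g * E f)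
    (hπ' : ∀ f, ∀ g ∈ Q', E' f * π g = π g * E' f) : c = 0 ∨ c' = 0 := by
  by_contra hn
  push Not at hn
  obtain ⟨hc, hc'⟩ := hn
  have h2 : ∀ f, c' • E f = c • E' f := by
    intro f
    have h3 := syn hE hE' 1 (fun f g hfg => by rw [mul_one]; exact hsep f g hfg) f
    rw [mul_one, mul_one, h1, h1', mul_smul_comm, mul_one, smul_mul_assoc, one_mul] at h3
    exact h3
  have h3 : ∀ f, E f = (c'⁻¹ * c) • E' f := by
    intro f
    rw [← smul_smul, ← h2, smul_smul, inv_mul_cancel₀ hc', one_smul]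
  refine hNC E hE c hc h1 hcov hW fun f g => ?_
  have hg : g ∈ Subgroup.closure (Q ∪ Q') := by rw [hQ]; trivial
  induction hg using Subgroup.closure_induction with
  | mem x hx =>
    rcases hx with hx | hx
    · exact hπ f x hx
    · rw [h3, smul_mul_assoc, mul_smul_comm, hπ' f x hx]
  | one => rw [map_one, mul_one, one_mul]
  | mul x y _ _ hx hy =>
    rw [map_mul, ← mul_assoc, hx, mul_assoc, hy, mul_assoc]
  | inv x _ hx =>
    have e1 : π x⁻¹ * π x = 1 := by rw [← map_mul, inv_mul_cancel, map_one]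
    have e2 : π x * π x⁻¹ = 1 := by rw [← map_mul, mul_inv_cancel, map_one]
    calc E f * π x⁻¹ = π x⁻¹ * π x * (E f * π x⁻¹) := by rw [e1, one_mul]
      _ = π x⁻¹ * (π x * E f) * π x⁻¹ := by simp only [mul_assoc]
      _ = π x⁻¹ * (E f * π x) * π x⁻¹ := by rw [hx]
      _ = π x⁻¹ * E f * (π x * π x⁻¹) := by simp only [mul_assoc]
      _ = _ := by rw [e2, mul_one]

variable {I : Type}

theorem sum_smul_inner {Ω : κ → K} (hΩ : ∑ i, ‖Ω i‖ ^ 2 = 1) (c : ℂ) :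
    ∑ j, ⟪Ω j, (c • (1 : K →L[ℂ] K)) (Ω j)⟫_ℂ = c := by
  have h1 : ∀ j, ⟪Ω j, (c • (1 : K →L[ℂ] K)) (Ω j)⟫_ℂ = c * ⟪Ω j, Ω j⟫_ℂ := fun j => by
    rw [ContinuousLinearMap.smul_apply, inner_smul_right]; rfl
  simp only [h1]
  rw [← Finset.mul_sum, sum_inner_self hΩ, mul_one]

theorem wlim_sum {P : I → (C(X, ℂ) →ₗ[ℂ] (K →L[ℂ] K))} {U : Filter I}
    {E : C(X, ℂ) →ₗ[ℂ] (K →L[ℂ] K)} (hE : WLim P U E) (f : C(X, ℂ)) (Ω : κ → K) :
    Tendsto (fun i => ∑ j, ⟪Ω j, P i f (Ω j)⟫_ℂ) U (𝓝 (∑ j, ⟪Ω j, E f (Ω j)⟫_ℂ)) :=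
  tendsto_finsetSum _ fun j _ => hE f (Ω j) (Ω j)

/-- **[D0-PUR], the type dichotomy**, families. -/
theorem half' {act : Γ → X → X} {π : G →* (K →L[ℂ] K)}
    {lam : Γ →* (K →L[ℂ] K)} {W : Set (K →L[ℂ] K)} (hNC : NoC act π lam W) {Ω : κ → K}
    (hΩ : ∑ i, ‖Ω i‖ ^ 2 = 1) {Q Q' : Set G} (hQ : Subgroup.closure (Q ∪ Q') = ⊤)
    (herg : Erg π lam W Q) (herg' : Erg π lam W Q')
    {P P' : I → (C(X, ℂ) →ₗ[ℂ] (K →L[ℂ] K))} (hP : ∀ i, UCP (P i)) (hP' : ∀ i, UCP (P' i))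
    {l : Filter I}
    (hL : ∀ U : Ultrafilter I, (U : Filter I) ≤ l → ∀ E, WLim P U E → LimF act π lam W Q E)
    (hL' : ∀ U : Ultrafilter I, (U : Filter I) ≤ l → ∀ E, WLim P' U E → LimF act π lam W Q' E)
    (hsep : ∀ f g : C(X, ℂ), Disjoint (tsupport f) (tsupport g) → ∀ ξ η,
      Tendsto (fun p : I × I => ⟪P p.1 f ξ, P' p.2 g η⟫_ℂ) (l ×ˢ l) (𝓝 0))
    (hsym : Tendsto (fun i => ∑ j, ⟪Ω j, P i 1 (Ω j)⟫_ℂ + ∑ j, ⟪Ω j, P' i 1 (Ω j)⟫_ℂ) l (𝓝 1)) :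
    (∀ ξ, Tendsto (fun i => P i 1 ξ) l (𝓝 ξ)) ∨ (∀ ξ, Tendsto (fun i => P' i 1 ξ) l (𝓝 ξ)) := by
  have hsum : ∀ U : Ultrafilter I, (U : Filter I) ≤ l → ∀ E E', WLim P U E → WLim P' U E' →
      ∃ c c' : ℂ, E 1 = c • 1 ∧ E' 1 = c' • 1 ∧ c + c' = 1 := by
    intro U hU E E' hE hE'
    have h1 := hL U hU E hE
    have h2 := hL' U hU E' hE'
    obtain ⟨c, hc⟩ := exists_scalar herg h1.cov h1.cm h1.par
    obtain ⟨c', hc'⟩ := exists_scalar herg' h2.cov h2.cm h2.par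
    refine ⟨c, c', hc, hc', ?_⟩
    have h3 := (wlim_sum hE 1 Ω).add (wlim_sum hE' 1 Ω)
    have h4 := tendsto_nhds_unique h3 (hsym.mono_left hU)
    rw [hc, hc', sum_smul_inner hΩ, sum_smul_inner hΩ] at h4
    exact h4
  by_contra hn
  rw [not_or] at hn
  obtain ⟨hn1, hn2⟩ := hn
  have hn1' : ∃ U : Ultrafilter I, (U : Filter I) ≤ l ∧ ∃ E, WLim P U E ∧ E 1 ≠ 1 := by
    by_contra hh
    push Not at hh
    exact hn1 (strong_of_weak hP hh)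
  have hn2' : ∃ U : Ultrafilter I, (U : Filter I) ≤ l ∧ ∃ E, WLim P' U E ∧ E 1 ≠ 1 := by
    by_contra hh
    push Not at hh
    exact hn2 (strong_of_weak hP' hh)
  obtain ⟨U, hU, E, hE, hE1⟩ := hn1'
  obtain ⟨U', hU', F', hF', hF1⟩ := hn2'
  obtain ⟨E', hE'⟩ := exists_wlim hP' U
  obtain ⟨F, hF⟩ := exists_wlim hP U'
  obtain ⟨c, c', hc, hc', hcc⟩ := hsum U hU E E' hE hE'
  obtain ⟨d, d', hd, hd', hdd⟩ := hsum U' hU' F F' hF hF'
  have hc0 : c' ≠ 0 := by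
    intro h
    rw [h, add_zero] at hcc
    exact hE1 (by rw [hc, hcc, one_smul])
  have hd0 : d ≠ 0 := by
    intro h
    rw [h, zero_add] at hdd
    exact hF1 (by rw [hd', hdd, one_smul])
  have h1 := hL U' hU' F hF
  have h2 := hL' U hU E' hE'
  rcases pur' hNC hQ (hF.ucp hP) (hE'.ucp hP') (fun f g hfg =>
    WLim.prod_zero hU' hU hP hF hE' (hsep (star f) g (hfg.mono_left (closure_mono fun x hx => by
      have h3 : star (f x) ≠ 0 := hx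
      exact fun h4 => h3 (by rw [h4, star_zero])))) ) hd hc' h1.cov h1.cm h1.par h2.par with h | h
  · exact hd0 h
  · exact hc0 h

/-- If the family state of the masses tends to zero, the masses tend strongly to zero. -/
theorem zero_of' {act : Γ → X → X} {π : G →* (K →L[ℂ] K)} {lam : Γ →* (K →L[ℂ] K)}
    {W : Set (K →L[ℂ] K)} {Q : Set G} {P : I → (C(X, ℂ) →ₗ[ℂ] (K →L[ℂ] K))} {l : Filter I}
    {Ω : κ → K} (hP : ∀ i, UCP (P i)) (hΩ : ∑ i, ‖Ω i‖ ^ 2 = 1) (herg : Erg π lam W Q)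
    (hL : ∀ U : Ultrafilter I, (U : Filter I) ≤ l → ∀ E, WLim P U E → LimF act π lam W Q E)
    (h0 : Tendsto (fun i => ∑ j, ⟪Ω j, P i 1 (Ω j)⟫_ℂ) l (𝓝 0)) (ξ : K) :
    Tendsto (fun i => P i 1 ξ) l (𝓝 0) := by
  have h1 : Tendsto (fun i => (⟪ξ, P i 1 ξ⟫_ℂ).re) l (𝓝 0) := by
    rw [tendsto_iff_ultrafilter]
    intro U hU
    obtain ⟨E, hE⟩ := exists_wlim hP U
    obtain ⟨c, hc⟩ := exists_scalar herg (hL U hU E hE).cov (hL U hU E hE).cm (hL U hU E hE).par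
    have h2 := tendsto_nhds_unique (wlim_sum hE 1 Ω) (h0.mono_left hU)
    rw [hc, sum_smul_inner hΩ] at h2
    have h3 := (Complex.continuous_re.tendsto _).comp (hE 1 ξ ξ)
    rw [hc, h2, zero_smul, zero_apply, inner_zero_right, Complex.zero_re] at h3
    exact h3
  have h2 : Tendsto (fun i => ‖P i 1 ξ‖ ^ 2) l (𝓝 0) :=
    squeeze_zero (fun i => sq_nonneg _) (fun i => by
      have h4 := (hP i).sch 1 ξ
      rwa [star_one, one_mul] at h4) h1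
  have h5 := h2.sqrt
  rw [Real.sqrt_zero] at h5
  exact tendsto_zero_iff_norm_tendsto_zero.2 (h5.congr fun i => Real.sqrt_sq (norm_nonneg _))

end abs

/-- The symmetry of the masses under inversion, for a family. -/
def SymF {Γ D K κ : Type} [Group Γ] [Group D] [NormedAddCommGroup K] [InnerProductSpace ℂ K]
    [Fintype κ] (mp : (Γ → ℝ) → (K →L[ℂ] K)) (R : D → (K →L[ℂ] K)) (Ω : κ → K) : Prop :=
  ∀ u (P : Set Γ), ∑ i, ‖st mp {g | g⁻¹ ∈ P} (R u⁻¹ (Ω i))‖ ^ 2 = ∑ i, ‖st mp P (R u (Ω i))‖ ^ 2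

section sym

variable {Γ D K Y κ : Type} [Group Γ] [Group D] [NormedAddCommGroup K] [InnerProductSpace ℂ K]
  [CompleteSpace K] [Fintype κ] {mp : (Γ → ℝ) → (K →L[ℂ] K)} {R : D → (K →L[ℂ] K)} {Bd : Set K}
  {ms : D → Set Γ → ℝ} {A : Subgroup D} {G1 G2 : Γ → ℝ} {bp : Γ → Y} {l : Filter D} {Ω : κ → K}

/-- one vector -/
theorem sym_one (h : SysF mp R Bd ms A G1 G2)
    (hfin : ∀ r, (FF G1 G2 r).Finite) (he : Esc (st mp) R Bd A l) {C : ℝ}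
    (hC : ∀ g, |G1 g⁻¹ - G2 g| ≤ C ∧ |G2 g⁻¹ - G1 g| ≤ C) (h1 : R 1 = 1) (ω : K) :
    Tendsto (fun w => ‖st mp {g | G2 g ≤ G1 g} (R w ω)‖ ^ 2 +
      ‖st mp {g | G2 g⁻¹ ≤ G1 g⁻¹} (R w ω)‖ ^ 2) l (𝓝 (‖ω‖ ^ 2)) := by
  obtain ⟨S, hS⟩ : ∃ S : Set Γ, S = {g | G2 g ≤ G1 g} := ⟨_, rfl⟩
  obtain ⟨S', hS'⟩ : ∃ S' : Set Γ, S' = {g | G2 g⁻¹ ≤ G1 g⁻¹} := ⟨_, rfl⟩
  obtain ⟨N, hN⟩ : ∃ N : Set Γ, N = {g | |G1 g - G2 g| ≤ 2 * C} := ⟨_, rfl⟩
  rw [← hS, ← hS']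
  have hneg := negl h.sys he hfin (N := N) (fun r => ⟨r + 2 * C, by
    rw [hN]; exact band_sub G1 G2 (2 * C) r⟩) ω
  have hprj := h.fn.prj
  have k3 : ∀ w, ‖st mp S (R w ω)‖ ^ 2 + ‖st mp Sᶜ (R w ω)‖ ^ 2 = ‖ω‖ ^ 2 := by
    intro w
    rw [hprj.norm_sq_add, h.sys.rep.norm_eq, h1]
    rfl
  have k4 : ∀ w, |‖st mp S (R w ω)‖ ^ 2 + ‖st mp S' (R w ω)‖ ^ 2 - ‖ω‖ ^ 2| ≤
      4 * ‖ω‖ * ‖st mp N (R w ω)‖ := by
    intro w
    have e1 : ‖st mp S (R w ω)‖ ^ 2 + ‖st mp S' (R w ω)‖ ^ 2 - ‖ω‖ ^ 2 =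
        (‖st mp S' (R w ω)‖ - ‖st mp Sᶜ (R w ω)‖) * (‖st mp S' (R w ω)‖ + ‖st mp Sᶜ (R w ω)‖) := by
      linear_combination k3 w
    have e2 : ‖st mp S' (R w ω) - st mp Sᶜ (R w ω)‖ ≤ 2 * ‖st mp N (R w ω)‖ := by
      refine hprj.sub_le (fun g hg => ?_) _
      rw [hN] at hg
      have hg1 : ¬ |G1 g - G2 g| ≤ 2 * C := hg
      rw [hS', hS]
      simp only [Set.mem_setOf_eq, Set.mem_compl_iff, not_le]
      obtain ⟨c1, c2⟩ := hC g
      have c1' := abs_le.1 c1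
      have c2' := abs_le.1 c2
      constructor
      · intro h3
        by_contra h4
        push Not at h4
        exact hg1 (abs_le.2 ⟨by linarith [(abs_nonneg _).trans c1], by linarith⟩)
      · intro h3
        by_contra h4
        push Not at h4
        exact hg1 (abs_le.2 ⟨by linarith, by linarith [(abs_nonneg _).trans c1]⟩)
    have e3 : ∀ T : Set Γ, ‖st mp T (R w ω)‖ ≤ ‖ω‖ := fun T =>
      (hprj.norm_le T (R w ω)).trans (h.sys.rep.norm_le w ω)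
    have e4 := (abs_norm_sub_norm_le (st mp S' (R w ω)) (st mp Sᶜ (R w ω))).trans e2
    rw [e1, abs_mul]
    have e5 : |‖st mp S' (R w ω)‖ + ‖st mp Sᶜ (R w ω)‖| ≤ 2 * ‖ω‖ := by
      rw [abs_of_nonneg (by positivity)]
      linarith [e3 S', e3 Sᶜ]
    calc _ ≤ (2 * ‖st mp N (R w ω)‖) * (2 * ‖ω‖) := mul_le_mul e4 e5 (abs_nonneg _) (by positivity)
      _ = _ := by ring
  have k5 : Tendsto (fun w => ‖st mp S (R w ω)‖ ^ 2 + ‖st mp S' (R w ω)‖ ^ 2 - ‖ω‖ ^ 2) l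
      (𝓝 0) := by
    have h4 := hneg.const_mul (4 * ‖ω‖)
    rw [mul_zero] at h4
    exact squeeze_zero_norm (fun w => k4 w) h4
  have k6 := k5.add_const (‖ω‖ ^ 2)
  rw [zero_add] at k6
  exact k6.congr fun w => by ring

/-- The symmetry under inversion: the two masses add up to `1`. -/
theorem sym_limF [TopologicalSpace Y] [CompactSpace Y] (h : SysF mp R Bd ms A G1 G2)
    (hfin : ∀ r, (FF G1 G2 r).Finite) (he : Esc (st mp) R Bd A l) (hsy : SymF mp R Ω) {C : ℝ}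
    (hC : ∀ g, |G1 g⁻¹ - G2 g| ≤ C ∧ |G2 g⁻¹ - G1 g| ≤ C) (h1 : R 1 = 1)
    (hΩ : ∑ i, ‖Ω i‖ ^ 2 = 1) :
    Tendsto (fun w => ∑ j, ⟪Ω j, net h.fn R G1 G2 bp w 1 (Ω j)⟫_ℂ +
      ∑ j, ⟪Ω j, net h.fn R G1 G2 bp w⁻¹ 1 (Ω j)⟫_ℂ) l (𝓝 1) := by
  have k1 : ∀ w, ∑ j, ⟪Ω j, net h.fn R G1 G2 bp w 1 (Ω j)⟫_ℂ +
      ∑ j, ⟪Ω j, net h.fn R G1 G2 bp w⁻¹ 1 (Ω j)⟫_ℂ =
      ((∑ j, (‖st mp {g | G2 g ≤ G1 g} (R w (Ω j))‖ ^ 2 +
        ‖st mp {g | G2 g⁻¹ ≤ G1 g⁻¹} (R w (Ω j))‖ ^ 2) : ℝ) : ℂ) := by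
    intro w
    have k2 := hsy w {g | G2 g⁻¹ ≤ G1 g⁻¹}
    have e : {g : Γ | g⁻¹ ∈ {g : Γ | G2 g⁻¹ ≤ G1 g⁻¹}} = {g | G2 g ≤ G1 g} := by
      ext g
      simp only [Set.mem_setOf_eq, inv_inv]
    rw [e] at k2
    simp only [net_inner h.fn h.sys.rep]
    rw [← Complex.ofReal_sum, ← Complex.ofReal_sum, ← Complex.ofReal_add, k2,
      ← Finset.sum_add_distrib]
  have k2 := tendsto_finsetSum (Finset.univ : Finset κ)
    (fun j _ => sym_one h hfin he hC h1 (Ω j))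
  rw [hΩ] at k2
  have k7 := (Complex.continuous_ofReal.tendsto _).comp k2
  rw [Complex.ofReal_one] at k7
  refine k7.congr fun w => ?_
  rw [k1 w]
  rfl

end sym

section dicho

variable {Γ D K Y κ : Type} [Group Γ] [Group D] [NormedAddCommGroup K] [InnerProductSpace ℂ K]
  [CompleteSpace K] [Fintype κ] {mp : (Γ → ℝ) → (K →L[ℂ] K)} {Bd : Set K}
  {ms : D → Set Γ → ℝ} {A : Subgroup D} {G1 G2 : Γ → ℝ} {bp : Γ → Y} {l : Filter D}
  {W : Set (K →L[ℂ] K)} {Q Q' : Set D} {Ω : κ → K}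
  [TopologicalSpace Y] [CompactSpace Y] [MulAction Γ Y] {π : D →* (K →L[ℂ] K)}
  {lam : Γ →* (K →L[ℂ] K)}

/-- **[D0-PUR], type dichotomy**, from the asymptotic statements; families. -/
theorem dicho_asyF (h : SysF mp π Bd ms A G1 G2) (hG : GeoF G1 G2 bp)
    (he : Esc (st mp) π Bd A l) (he' : Esc (st mp) π Bd A (l.map (·⁻¹)))
    (hsy : SymF mp π Ω) {C : ℝ} (hC : ∀ g, |G1 g⁻¹ - G2 g| ≤ C ∧ |G2 g⁻¹ - G1 g| ≤ C)
    (hΩ : ∑ i, ‖Ω i‖ ^ 2 = 1) (hNC : NoC (fun (γ : Γ) (y : Y) => γ • y) π lam W)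
    (hQ : Subgroup.closure (Q ∪ Q') = ⊤) (herg : Erg π lam W Q) (herg' : Erg π lam W Q')
    (hcov : ∀ l' : Filter D, Esc (st mp) π Bd A l' → ∀ (s : Γ) (f f' : C(Y, ℂ)),
      (∀ y, f' (s • y) = f y) → ∀ ξ : K, Tendsto (fun w =>
        (lam s * PC mp π w (H859.CL.cfc G1 G2 bp f) * lam s⁻¹ -
          PC mp π w (H859.CL.cfc G1 G2 bp f')) ξ) l' (𝓝 0))
    (hcm : ∀ a ∈ W, ∀ w (f : C(Y, ℂ)), a * PC mp π w (H859.CL.cfc G1 G2 bp f) =
      PC mp π w (H859.CL.cfc G1 G2 bp f) * a)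
    (hpar : ∀ n ∈ Q, ∀ (f : C(Y, ℂ)) (ξ η : K), Tendsto (fun w =>
      ⟪η, (PC mp π w (H859.CL.cfc G1 G2 bp f) * π n -
        π n * PC mp π w (H859.CL.cfc G1 G2 bp f)) ξ⟫_ℂ) l (𝓝 0))
    (hpar' : ∀ n ∈ Q', ∀ (f : C(Y, ℂ)) (ξ η : K), Tendsto (fun w =>
      ⟪η, (PC mp π w (H859.CL.cfc G1 G2 bp f) * π n -
        π n * PC mp π w (H859.CL.cfc G1 G2 bp f)) ξ⟫_ℂ) (l.map (·⁻¹)) (𝓝 0)) :
    (Full (st mp) π G1 G2 l ∧ Full (st mp) π G2 G1 (l.map (·⁻¹))) ∨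
      (Full (st mp) π G2 G1 l ∧ Full (st mp) π G1 G2 (l.map (·⁻¹))) := by
  have h1 : π 1 = 1 := map_one π
  have hi : Tendsto (fun w : D => w⁻¹) l (l.map (·⁻¹)) := tendsto_map
  have hsym := sym_limF (bp := bp) h hG.fin he hsy hC h1 hΩ
  have hL : ∀ U : Ultrafilter D, (U : Filter D) ≤ l → ∀ E, WLim (net h.fn π G1 G2 bp) U E →
      LimF (fun (γ : Γ) (y : Y) => γ • y) π lam W Q E := fun U hU E hE =>
    limF_of (P := net h.fn π G1 G2 bp) (l := l) (fun s f f' hff ξ η => by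
      have h3 := (tendsto_const_nhds (x := η)).inner (𝕜 := ℂ) (hcov l he s f f' hff ξ)
      rw [inner_zero_right] at h3
      exact h3) (fun a ha i f => hcm a ha i f) (fun n hn f ξ η => hpar n hn f ξ η) hU hE
  have hL' : ∀ U : Ultrafilter D, (U : Filter D) ≤ l → ∀ E,
      WLim (fun w => net h.fn π G1 G2 bp w⁻¹) U E →
      LimF (fun (γ : Γ) (y : Y) => γ • y) π lam W Q' E := fun U hU E hE =>
    limF_of (P := fun w => net h.fn π G1 G2 bp w⁻¹) (l := l) (fun s f f' hff ξ η => by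
      have h3 := (tendsto_const_nhds (x := η)).inner (𝕜 := ℂ)
        ((hcov _ he' s f f' hff ξ).comp hi)
      rw [inner_zero_right] at h3
      exact h3) (fun a ha i f => hcm a ha i⁻¹ f)
      (fun n hn f ξ η => (hpar' n hn f ξ η).comp hi) hU hE
  have hP : ∀ w, UCP (net h.fn π G1 G2 bp w) := fun w => net_ucp h.fn h.sys.rep w
  have hsep : ∀ f g : C(Y, ℂ), Disjoint (tsupport f) (tsupport g) → ∀ ξ η,
      Tendsto (fun p : D × D => ⟪net h.fn π G1 G2 bp p.1 f ξ,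
        net h.fn π G1 G2 bp p.2⁻¹ g η⟫_ℂ) (l ×ˢ l) (𝓝 0) := fun f g hfg ξ η =>
    (sep_cplx h hG he he' f g hfg ξ η).comp (tendsto_fst.prodMk (hi.comp tendsto_snd))
  have fin1 : ∀ l' : Filter D, (∀ ξ, Tendsto (fun w => net h.fn π G1 G2 bp w 1 ξ) l' (𝓝 ξ)) →
      Full (st mp) π G1 G2 l' := fun l' hl ξ => by
    rw [h1]
    exact (hl ξ).congr fun w => by rw [net_one]
  have hsumΩ : ∀ {P : D → (C(Y, ℂ) →ₗ[ℂ] (K →L[ℂ] K))},
      (∀ ξ, Tendsto (fun i => P i 1 ξ) l (𝓝 ξ)) →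
      Tendsto (fun i => ∑ j, ⟪Ω j, P i 1 (Ω j)⟫_ℂ) l (𝓝 1) := fun {P} hh => by
    have h3 := tendsto_finsetSum (Finset.univ : Finset κ) fun j _ =>
      (tendsto_const_nhds (x := Ω j)).inner (𝕜 := ℂ) (hh (Ω j))
    rwa [sum_inner_self hΩ] at h3
  rcases half' hNC hΩ hQ herg herg' (P := net h.fn π G1 G2 bp)
    (P' := fun w => net h.fn π G1 G2 bp w⁻¹) hP (fun w => hP w⁻¹) hL hL' hsep hsym with hh | hh
  · refine Or.inl ⟨fin1 l hh, full_of_zero (bp := bp) h hG.fin he' fun ξ => ?_⟩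
    rw [tendsto_map'_iff]
    refine zero_of' (P := fun w => net h.fn π G1 G2 bp w⁻¹) (fun w => hP w⁻¹) hΩ herg' hL' ?_ ξ
    have h4 := hsym.sub (hsumΩ hh)
    rw [sub_self] at h4
    exact h4.congr fun w => by ring
  · refine Or.inr ⟨full_of_zero (bp := bp) h hG.fin he fun ξ => ?_, fin1 _ fun ξ => ?_⟩
    · refine zero_of' (P := net h.fn π G1 G2 bp) hP hΩ herg hL ?_ ξ
      have h4 := hsym.sub (hsumΩ hh)
      rw [sub_self] at h4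
      exact h4.congr fun w => by ring
    · rw [tendsto_map'_iff]
      exact hh ξ

variable [TopologicalSpace D]

/-- **The type dichotomy, families.** -/
theorem dichoF (h : SysF mp π Bd ms A G1 G2) (hG : GeoF G1 G2 bp) (hL : Leg mp π lam W)
    (hS : Slow mp π Bd) (he : Esc (st mp) π Bd A l) (he' : Esc (st mp) π Bd A (l.map (·⁻¹)))
    (hLU : LU mp π G1 G2 l) (hLU' : LU mp π G1 G2 (l.map (·⁻¹)))
    (hsy : SymF mp π Ω) {C : ℝ} (hC : ∀ g, |G1 g⁻¹ - G2 g| ≤ C ∧ |G2 g⁻¹ - G1 g| ≤ C)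
    (hΩ : ∑ i, ‖Ω i‖ ^ 2 = 1) (hNC : NoC (fun (γ : Γ) (y : Y) => γ • y) π lam W)
    (hQ : ∀ n ∈ Q, Tendsto (fun w => w * n * w⁻¹) l (𝓝 1) ∨ ∀ᶠ w in l, Commute w n)
    (hQ' : ∀ n ∈ Q', Tendsto (fun w => w⁻¹ * n * w) l (𝓝 1) ∨ ∀ᶠ w in l, Commute w n)
    (hcl : Subgroup.closure (Q ∪ Q') = ⊤) (herg : Erg π lam W Q) (herg' : Erg π lam W Q') :
    (Full (st mp) π G1 G2 l ∧ Full (st mp) π G2 G1 (l.map (·⁻¹))) ∨
      (Full (st mp) π G2 G1 l ∧ Full (st mp) π G1 G2 (l.map (·⁻¹))) := by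
  refine dicho_asyF h hG he he' hsy hC hΩ hNC hcl herg herg'
    (fun l' hl' s f f' hff ξ => asy_cov h hG hL hl' s hff ξ)
    (fun a ha w f => PC_W hL h.fn h.sys.rep ha (cfc_norm fun y => f.norm_coe_le_norm y) w)
    (fun n hn f ξ η => asy_par h hG hS hLU (hQ n hn) f ξ η)
    (fun n hn f ξ η => asy_par h hG hS hLU' ?_ f ξ η)
  rcases hQ' n hn with h1 | h1
  · left
    rw [tendsto_map'_iff]
    refine h1.congr fun w => ?_
    simp only [Function.comp_apply, inv_inv]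
  · right
    rw [eventually_map]
    filter_upwards [h1] with w hw
    exact hw.inv_left

/-- The type dichotomy along the powers of an element, families. -/
theorem dicho_powF {b : D} (h : SysF mp π Bd ms A G1 G2) (hG : GeoF G1 G2 bp)
    (hL : Leg mp π lam W) (hS : Slow mp π Bd)
    (he : Esc (st mp) π Bd A (map (fun n : ℕ => b ^ n) atTop))
    (he' : Esc (st mp) π Bd A (map (fun n : ℕ => b⁻¹ ^ n) atTop))
    (hLU : LU mp π G1 G2 (map (fun n : ℕ => b ^ n) atTop))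
    (hLU' : LU mp π G1 G2 (map (fun n : ℕ => b⁻¹ ^ n) atTop))
    (hsy : SymF mp π Ω) {C : ℝ} (hC : ∀ g, |G1 g⁻¹ - G2 g| ≤ C ∧ |G2 g⁻¹ - G1 g| ≤ C)
    (hΩ : ∑ i, ‖Ω i‖ ^ 2 = 1) (hNC : NoC (fun (γ : Γ) (y : Y) => γ • y) π lam W)
    (hQ : ∀ n ∈ Q, Tendsto (fun i : ℕ => b ^ i * n * (b ^ i)⁻¹) atTop (𝓝 1) ∨ Commute b n)
    (hQ' : ∀ n ∈ Q', Tendsto (fun i : ℕ => (b ^ i)⁻¹ * n * b ^ i) atTop (𝓝 1) ∨ Commute b n)
    (hcl : Subgroup.closure (Q ∪ Q') = ⊤) (herg : Erg π lam W Q) (herg' : Erg π lam W Q') :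
    (Full (st mp) π G1 G2 (map (fun n : ℕ => b ^ n) atTop) ∧
        Full (st mp) π G2 G1 (map (fun n : ℕ => b⁻¹ ^ n) atTop)) ∨
      (Full (st mp) π G2 G1 (map (fun n : ℕ => b ^ n) atTop) ∧
        Full (st mp) π G1 G2 (map (fun n : ℕ => b⁻¹ ^ n) atTop)) := by
  have e : (map (fun n : ℕ => b ^ n) atTop).map (·⁻¹) = map (fun n : ℕ => b⁻¹ ^ n) atTop := by
    rw [Filter.map_map]
    congr 1
    funext n
    simp only [Function.comp_apply, inv_pow]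
  have h1 := dichoF (l := map (fun n : ℕ => b ^ n) atTop) h hG hL hS he (e ▸ he') hLU (e ▸ hLU')
    hsy hC hΩ hNC (fun n hn => ?_) (fun n hn => ?_) hcl herg herg'
  · rw [e] at h1
    exact h1
  · rcases hQ n hn with h2 | h2
    · exact Or.inl (tendsto_map'_iff.2 h2)
    · exact Or.inr (eventually_map.2 (Eventually.of_forall fun i => h2.pow_left i))
  · rcases hQ' n hn with h2 | h2
    · exact Or.inl (tendsto_map'_iff.2 h2)
    · exact Or.inr (eventually_map.2 (Eventually.of_forall fun i => h2.pow_left i))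

end dicho

end Vale.Agent.P092.H21
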