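import Vale.Agent.P092.H21.RowL
import Vale.Agent.P092.H21.DichoF
import Vale.Agent.P092.H357.Sep3
import Vale.Agent.P092.H776.NW2

/-!
P092 (helper21), all `t`: the multiplication operators of leg 1 on the picture `L²(X; ℋ)` of a
triple with an honest family: the legs, the vectors of the family, countable additivity, tails,
cyclicity and the symmetry of the masses.
-/

set_option linter.all false

open scoped InnerProductSpace ENNReal
open Filter Topology ContinuousLinearMap MeasureTheory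

namespace Vale.Agent.P092.H21

open Vale.Agent.P092.H160 Vale.Agent.P092.H432 Vale.Agent.P092.SR
open Vale.Agent.P092.H553 hiding ind
open Vale.Agent.P092.H132 (Base TRep massX)
open Vale.Agent.P092.H538 (fst)
open Vale.Agent.P092.H790 (CData Ri baseL lxt ri_ae ri_one ri_comp comp_mul comp_one)
open Vale.Agent.P092.H859.CL
open Vale.Agent.P092.H43 (Loc2 BfL CCont)

/-! ### Abstract: additivity -/

section abs

variable {Γ K : Type} [NormedAddCommGroup K] [InnerProductSpace ℂ K] [CompleteSpace K]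
  {m : Set Γ → (K →L[ℂ] K)}

theorem prj_union (h : Prj m) {S T : Set Γ} (hd : Disjoint S T) (ξ : K) :
    ‖m (S ∪ T) ξ‖ ^ 2 = ‖m S ξ‖ ^ 2 + ‖m T ξ‖ ^ 2 := by
  have e0 := h.norm_sq_add S (m (S ∪ T) ξ)
  have e1 : m S (m (S ∪ T) ξ) = m S ξ := by
    have : m S * m (S ∪ T) = m S := by
      rw [← h.inter, Set.inter_eq_left.2 Set.subset_union_left]
    exact congrArg (fun A : K →L[ℂ] K => A ξ) this
  have e2 : m Sᶜ (m (S ∪ T) ξ) = m T ξ := by
    have : m Sᶜ * m (S ∪ T) = m T := by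
      rw [← h.inter]
      congr 1
      refine Set.ext fun x => ?_
      have := fun h : x ∈ S => Set.disjoint_left.1 hd h
      simp only [Set.mem_inter_iff, Set.mem_compl_iff, Set.mem_union]
      tauto
    exact congrArg (fun A : K →L[ℂ] K => A ξ) this
  rw [e1, e2] at e0
  exact e0.symm

theorem prj_finset (h : Prj m) (F : Finset Γ) (ξ : K) :
    ‖m (F : Set Γ) ξ‖ ^ 2 = ∑ γ ∈ F, ‖m {γ} ξ‖ ^ 2 := by
  classical
  induction F using Finset.induction_on with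
  | empty =>
    have h1 := prj_union h (disjoint_bot_left : Disjoint (∅ : Set Γ) ∅) ξ
    rw [Set.union_empty] at h1
    have h2 : ‖m (∅ : Set Γ) ξ‖ ^ 2 = 0 := by linarith
    rw [Finset.coe_empty, Finset.sum_empty, h2]
  | insert a s ha ih =>
    rw [Finset.coe_insert, Finset.sum_insert ha, ← ih, Set.insert_eq]
    refine prj_union h ?_ ξ
    rw [Set.disjoint_singleton_left]
    exact ha

/-- Countable additivity, from the tails. -/
theorem sig_of (h : Prj m) {ξ : K}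
    (hf : ∀ ε : ℝ, 0 < ε → ∃ F : Finset Γ, ‖m ((F : Set Γ))ᶜ ξ‖ ≤ ε) (S : Set Γ) :
    ‖m S ξ‖ₑ ^ 2 ≤ ∑' γ, S.indicator (fun γ => ‖m {γ} ξ‖ₑ ^ 2) γ := by
  classical
  have sq : ∀ x : K, ENNReal.ofReal (‖x‖ ^ 2) = ‖x‖ₑ ^ 2 := fun x => by
    rw [ENNReal.ofReal_pow (norm_nonneg _), ofReal_norm]
  refine le_of_forall_pos_le_add fun ε hε => ?_
  obtain ⟨δ, hδ, hδε⟩ : ∃ δ : ℝ, 0 < δ ∧ ENNReal.ofReal (δ ^ 2) ≤ ε := by
    obtain ⟨r, hr, hrε⟩ := ENNReal.lt_iff_exists_nnreal_btwn.1 (pos_iff_ne_zero.2 hε.ne')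
    have hr0 : 0 < (r : ℝ) := by exact_mod_cast hr
    refine ⟨Real.sqrt r, Real.sqrt_pos.2 hr0, ?_⟩
    rw [Real.sq_sqrt hr0.le, ENNReal.ofReal_coe_nnreal]
    exact hrε.le
  obtain ⟨F, hF⟩ := hf δ hδ
  set F' : Finset Γ := F.filter fun γ => γ ∈ S with hF'
  have e1 : S = (F' : Set Γ) ∪ (S ∩ (F : Set Γ)ᶜ) := by
    ext γ
    simp only [hF', Finset.coe_filter, Set.mem_union, Set.mem_setOf_eq, Set.mem_inter_iff,
      Set.mem_compl_iff, Finset.mem_coe]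
    tauto
  have e2 : Disjoint (F' : Set Γ) (S ∩ (F : Set Γ)ᶜ) := by
    rw [Set.disjoint_left]
    intro γ h1 h2
    rw [hF', Finset.coe_filter] at h1
    exact h2.2 (Finset.mem_coe.2 h1.1)
  have e3 : ‖m (S ∩ (F : Set Γ)ᶜ) ξ‖ ^ 2 ≤ δ ^ 2 := by
    refine pow_le_pow_left₀ (norm_nonneg _) ?_ 2
    rw [h.inter]
    exact (h.norm_le S _).trans hF
  have e4 : ‖m S ξ‖ ^ 2 ≤ ∑ γ ∈ F', ‖m {γ} ξ‖ ^ 2 + δ ^ 2 := by
    conv_lhs => rw [e1]
    rw [prj_union h e2, prj_finset h]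
    exact add_le_add le_rfl e3
  rw [← sq]
  refine (ENNReal.ofReal_le_ofReal e4).trans ?_
  rw [ENNReal.ofReal_add (Finset.sum_nonneg fun _ _ => by positivity) (by positivity)]
  refine add_le_add ?_ hδε
  rw [ENNReal.ofReal_sum_of_nonneg fun _ _ => by positivity]
  refine le_trans ?_ (ENNReal.sum_le_tsum F')
  refine Finset.sum_le_sum fun γ hγ => ?_
  have hγS : γ ∈ S := (Finset.mem_filter.1 hγ).2
  rw [Set.indicator_of_mem hγS, sq]

end abs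

/-! ### The fibre -/

section tri

variable {Γ ι ℋ : Type} [Group Γ] [Fintype ι] [NormedAddCommGroup ℋ] [InnerProductSpace ℂ ℋ]
  [CompleteSpace ℋ] {V R₁ R₂ : Γ →* (ℋ →L[ℂ] ℋ)} {ξ : ι → ℋ} (hT : Tri V R₁ R₂ ξ)

/-- The vectors of an honest family live on the first coordinate `1`. -/
theorem mp_hon (hh : Hon R₁ R₂ ξ) {F : Γ → ℝ} {C : ℝ} (hF : ∀ g, |F g| ≤ C) (h1 : F 1 = 1)
    (i : ι) : mp ι (fun x : Γ × Γ => F x.1) (UT hT (ξ i)) = UT hT (ξ i) := by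
  apply ext_inner_dl
  rintro ⟨⟨g, h⟩, j⟩
  rw [mp, H553.mo_apply (F := fun x : (Γ × Γ) × ι => F x.1.1) (C := C) fun x => hF _]
  change (F g : ℂ) * (UT hT (ξ i)) ((g, h), j) = (UT hT (ξ i)) ((g, h), j)
  by_cases hg : g = 1
  · rw [hg, h1, Complex.ofReal_one, one_mul]
  · have e : (UT hT (ξ i)) ((g, h), j) = 0 := by
      rw [UT_ap]
      exact hh g hg h j i
    rw [e, mul_zero]

end tri

/-! ### The picture -/

section pic

variable {D Γ ι ℋ : Type} [Group D] [Group Γ] [Countable Γ] [Fintype ι] [NormedAddCommGroup ℋ]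
  [InnerProductSpace ℂ ℋ] [CompleteSpace ℋ] {V R₁ R₂ : Γ →* (ℋ →L[ℂ] ℋ)} {ξ : ι → ℋ}
  (d : CData D Γ) (hT : Tri V R₁ R₂ ξ) (hh : Hon R₁ R₂ ξ)

/-- The coefficients of leg 1 on the picture. -/
def WT (R₂ : Γ →* (ℋ →L[ℂ] ℋ)) : Set (Lp ℋ 2 d.μ →L[ℂ] Lp ℋ 2 d.μ) :=
  {T | ∃ S, MeasurableSet S ∧ T = H790.ind d.μ ℋ S} ∪ Set.range (H34.Ind.lam d R₂)

include hh in
theorem fn_T : Fn (mT d hT) :=
  Fn.cu (fn_base _) (ijT d hT) (fun {F} {C} hF => mp1_comm d hT hh hF)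

theorem mp_const (F : Γ → ℝ) (v : Ell2 ((Γ × Γ) × ι)) :
    (fst (baseL d.μ (Γ × Γ) ι)).mp F (Lp.const 2 d.μ v) =
      Lp.const 2 d.μ (mp ι (fun x : Γ × Γ => F x.1) v) := compL_const _ v

include hh in
/-- The vectors of the family are fixed by the functions with `F 1 = 1`. -/
theorem mT_const {F : Γ → ℝ} {C : ℝ} (hF : ∀ g, |F g| ≤ C) (h1 : F 1 = 1) (c : ℂ) (i : ι) :
    mT d hT F (Lp.const 2 d.μ (c • ξ i)) = Lp.const 2 d.μ (c • ξ i) := by
  apply (ijT d hT).inj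
  rw [JT_mT d hT hh hF, JT_const, mp_const, map_smul, map_smul, mp_hon hT hh hF h1]

include hh in
/-- **`om`** -/
theorem om_T (c : ℂ) (i : ι) :
    st (mT d hT) {1} (Lp.const 2 d.μ (c • ξ i)) = Lp.const 2 d.μ (c • ξ i) :=
  mT_const d hT hh (abs_ind_le _) (ind_pos (P := fun g => g ∈ ({1} : Set Γ)) rfl) c i

include hh in
/-- **`fin`** -/
theorem fin_T (η : Lp ℋ 2 d.μ) {ε : ℝ} (hε : 0 < ε) :
    ∃ F : Finset Γ, ‖st (mT d hT) ((F : Set Γ))ᶜ η‖ ≤ ε := by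
  obtain ⟨F, hF⟩ := H776.NW.tail d (Q := Γ) (ι := ι) (JT d hT η) hε
  refine ⟨F, le_trans (le_of_eq ?_) hF⟩
  rw [(fn_T d hT hh).prj.compl, ← (ijT d hT).norm, sub_apply, map_sub]
  have h1 : JT d hT (st (mT d hT) (F : Set Γ) η) =
      H776.NW.PF d (Q := Γ) ι (F : Set Γ) (JT d hT η) := JT_mT d hT hh (abs_ind_le _) η
  rw [h1]
  rfl

include hh in
/-- **`sig`** -/
theorem sig_T (S : Set Γ) (η : Lp ℋ 2 d.μ) :
    ‖st (mT d hT) S η‖ₑ ^ 2 ≤
      ∑' γ, S.indicator (fun γ => ‖st (mT d hT) {γ} η‖ₑ ^ 2) γ :=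
  sig_of (fn_T d hT hh).prj (fun ε hε => fin_T d hT hh η hε) S

theorem V_mul_inv (g : D) :
    H34.Ind.pi d (V := V) hT.adjV g * H34.Ind.pi d (V := V) hT.adjV g⁻¹ = 1 := by
  rw [← map_mul, mul_inv_cancel, map_one]

include hh in
/-- **`Leg` on the picture.** -/
theorem leg_T {ι' : Type} [Fintype ι'] {ξ' : ι' → ℋ}
    (hΓ : ∀ g : Γ, g ≠ 1 → Set.Infinite {y : Γ | ∃ h, y = h * g * h⁻¹}) (hT' : Tri R₁ V R₂ ξ') :
    Leg (mT d hT) (fun g => H34.Ind.pi d (V := V) hT.adjV g) (fun γ => H34.Ind.lam d R₁ γ)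
      (WT d R₂) := by
  refine leg_cu (lam := fun γ => lxt d.μ (γ, (1 : Γ))) (ijT d hT) (repT d hT hΓ hT')
    (fun {F} {C} hF => mp1_comm d hT hh hF) (pi_eq_cu d hT) (JT_lam₁ d hT)
    (fun γ γ' => map_mul _ _ _) (map_one _) (fun g γ => ?_) (fun γ F hF => ?_) ?_ ?_
  · exact H34.Ind.pi_lam d hT.adjV (fun v g => hT.comm₁ v g) g γ
  · exact (fst (baseL d.μ (Γ × Γ) ι)).lx_mp (F := F) (C := 1) hF γ
  · rintro w (⟨S, hS, rfl⟩ | ⟨q, rfl⟩) g
    · left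
      refine ⟨d.act g⁻¹ ⁻¹' S, (d.mp g⁻¹).measurable hS, ?_⟩
      rw [H34.Ind.pi_ind d hT.adjV g hS, mul_assoc, V_mul_inv d hT, mul_one]
    · right
      refine ⟨q, ?_⟩
      rw [H34.Ind.pi_lam d hT.adjV (fun v g => hT.comm₂ v g) g q, mul_assoc, V_mul_inv d hT,
        mul_one]
  · rintro w (⟨S, hS, rfl⟩ | ⟨q, rfl⟩)
    · refine ⟨H790.ind d.μ _ S, JT_ind d hT hS, fun F hF => ?_⟩
      exact (baseL d.μ (Γ × Γ) ι).sc_mp (H790.ind d.μ _ S) ⟨S, hS, rfl⟩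
        (F := fun x : Γ × Γ => F x.1) (C := 1) fun x => hF _
    · refine ⟨lxt d.μ ((1 : Γ), q), JT_lam₂ d hT q, fun F hF => ?_⟩
      exact (H538.mp_snd_comm (baseL d.μ (Γ × Γ) ι) (F := F) (C := 1) hF q).symm

/-- The family in the row model. -/
theorem JT_fam (c : ℂ) (i : ι) : JT d hT (Lp.const 2 d.μ (c • ξ i)) =
    c • Ri d (RT hT) 1 (H790.ept d.μ i) := by
  have e1 : (Lp.const 2 d.μ (c • ξ i) : Lp ℋ 2 d.μ) = c • Lp.const 2 d.μ (ξ i) := rfl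
  rw [e1, map_smul, JT_const, ri_one d (RT_norm_le hT)]
  congr 1
  have e2 : (RT hT 1).compLpL 2 d.μ (H790.ept d.μ i) = Lp.const 2 d.μ (RT hT 1 (ep i)) :=
    compL_const _ _
  rw [e2, RT_one_ap, adjUT_ep]

theorem ri_one_ept {t : ℝ} (hR : ARep t (RT hT)) (u : D) (i : ι) :
    Ri d (RT hT) u (Ri d (RT hT) 1 (H790.ept d.μ i)) = Ri d (RT hT) u (H790.ept d.μ i) := by
  rw [← mul_ap', (rep_ri d hR).mul_one']

include hh in
theorem mass_T {t : ℝ} (hR : ARep t (RT hT)) (c : ℂ) (S : Set Γ) (u : D) (i : ι) :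
    ‖st (mT d hT) S (H34.Ind.pi d (V := V) hT.adjV u (Lp.const 2 d.μ (c • ξ i)))‖ ^ 2 =
      ‖c‖ ^ 2 * ‖(fst (baseL d.μ (Γ × Γ) ι)).mp (H553.ind fun g => g ∈ S)
        (Ri d (RT hT) u (H790.ept d.μ i))‖ ^ 2 := by
  have h2 : JT d hT (st (mT d hT) S
      (H34.Ind.pi d (V := V) hT.adjV u (Lp.const 2 d.μ (c • ξ i)))) =
      (fst (baseL d.μ (Γ × Γ) ι)).mp (H553.ind fun g => g ∈ S)
      (JT d hT (H34.Ind.pi d (V := V) hT.adjV u (Lp.const 2 d.μ (c • ξ i)))) :=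
    JT_mT d hT hh (abs_ind_le _) _
  rw [← (ijT d hT).norm, h2, JT_pi, JT_fam, map_smul, map_smul, ri_one_ept d hT hR, norm_smul,
    mul_pow]

include hh in
/-- **The symmetry of the masses**, for the family. -/
theorem symF_T {ι' : Type} [Fintype ι'] {ξ' : ι' → ℋ}
    (hΓ : ∀ g : Γ, g ≠ 1 → Set.Infinite {y : Γ | ∃ h, y = h * g * h⁻¹}) (hT' : Tri R₁ V R₂ ξ')
    (c : ℂ) :
    SymF (mT d hT) (fun g => H34.Ind.pi d (V := V) hT.adjV g)
      (fun i => (Lp.const 2 d.μ (c • ξ i) : Lp ℋ 2 d.μ)) := by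
  have hR := arepT hT hΓ hT'
  intro u P
  have e1 := Finset.sum_congr rfl
    (fun i (_ : i ∈ (Finset.univ : Finset ι)) => mass_T d hT hh hR c {g | g⁻¹ ∈ P} u⁻¹ i)
  have e2 := Finset.sum_congr rfl
    (fun i (_ : i ∈ (Finset.univ : Finset ι)) => mass_T d hT hh hR c P u i)
  refine e1.trans (Eq.trans ?_ e2.symm)
  rw [← Finset.mul_sum, ← Finset.mul_sum]
  exact congrArg (‖c‖ ^ 2 * ·)
    (H357.sym_sum (B := fst (baseL d.μ (Γ × Γ) ι)) (H538.trep_fst (H790.trep d hR)) u P)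

include hh in
/-- the commutation with the coefficients, for sets -/
theorem cm_T {ι' : Type} [Fintype ι'] {ξ' : ι' → ℋ}
    (hΓ : ∀ g : Γ, g ≠ 1 → Set.Infinite {y : Γ | ∃ h, y = h * g * h⁻¹}) (hT' : Tri R₁ V R₂ ξ')
    (S : Set Γ) (w : Lp ℋ 2 d.μ →L[ℂ] Lp ℋ 2 d.μ) (hw : w ∈ WT d R₂) :
    st (mT d hT) S * w = w * st (mT d hT) S :=
  ((leg_T d hT hh hΓ hT').Wm w hw _ fun g => abs_ind_le _ g).symm

include hh in
/-- the covariance, for sets -/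
theorem cov_T {ι' : Type} [Fintype ι'] {ξ' : ι' → ℋ}
    (hΓ : ∀ g : Γ, g ≠ 1 → Set.Infinite {y : Γ | ∃ h, y = h * g * h⁻¹}) (hT' : Tri R₁ V R₂ ξ')
    (γ : Γ) (S : Set Γ) :
    H34.Ind.lam d R₁ γ * st (mT d hT) S * H34.Ind.lam d R₁ γ⁻¹ =
      st (mT d hT) ((fun x => γ * x) '' S) := by
  have h1 := (leg_T d hT hh hΓ hT').cov γ _ (fun g => abs_ind_le (fun g => g ∈ S) g)
  refine h1.trans ?_
  rw [st]
  congr 1
  funext g
  by_cases hg : γ⁻¹ * g ∈ S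
  · rw [ind_pos (P := fun g => g ∈ S) hg, ind_pos (P := fun g => g ∈ (fun x => γ * x) '' S)]
    exact ⟨γ⁻¹ * g, hg, mul_inv_cancel_left γ g⟩
  · rw [ind_neg (P := fun g => g ∈ S) hg, ind_neg (P := fun g => g ∈ (fun x => γ * x) '' S)]
    rintro ⟨x, hx, rfl⟩
    exact hg (by rwa [inv_mul_cancel_left])

theorem adjJT_const (v : Ell2 ((Γ × Γ) × ι)) :
    adjoint (JT d hT) (Lp.const 2 d.μ v) = Lp.const 2 d.μ (adjoint (UT hT) v) := by
  rw [JT, adjoint_compL]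
  exact compL_const _ v

theorem adjJT_ind {S : Set d.X} (hS : MeasurableSet S) (ζ : Lp (Ell2 ((Γ × Γ) × ι)) 2 d.μ) :
    adjoint (JT d hT) (H790.ind d.μ _ S ζ) = H790.ind d.μ ℋ S (adjoint (JT d hT) ζ) := by
  rw [JT, adjoint_compL]
  exact compL_ind hS ζ

include hh in
/-- **`cyc`**: the fields over the coordinate `1` are generated by the family. -/
theorem cyc_T {c : ℂ} (hc : c ≠ 0) {ζ : Lp ℋ 2 d.μ} (hζ : st (mT d hT) {1} ζ = ζ) :
    ζ ∈ closure (Submodule.span ℂ {η | ∃ i, ∃ w ∈ StarAlgebra.adjoin ℂ (WT d R₂),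
      η = w (Lp.const 2 d.μ (c • ξ i))} : Set (Lp ℋ 2 d.μ)) := by
  obtain ⟨N, hN⟩ : ∃ N : Submodule ℂ (Lp ℋ 2 d.μ), N = Submodule.span ℂ
    {η | ∃ i, ∃ w ∈ StarAlgebra.adjoin ℂ (WT d R₂), η = w (Lp.const 2 d.μ (c • ξ i))} := ⟨_, rfl⟩
  rw [← hN]
  have h1 : ζ ∈ Nᗮᗮ := by
    rw [Submodule.mem_orthogonal]
    intro u hu
    have h0 : st (mT d hT) {1} u = 0 := by
      apply (ijT d hT).inj
      rw [map_zero]
      have e0 : JT d hT (st (mT d hT) {1} u) =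
          (fst (baseL d.μ (Γ × Γ) ι)).mp (H553.ind fun g => g ∈ ({1} : Set Γ)) (JT d hT u) :=
        JT_mT d hT hh (abs_ind_le _) u
      rw [e0]
      refine (baseL d.μ (Γ × Γ) ι).total _ fun s a ha i => ?_
      obtain ⟨S, hS, rfl⟩ := ha
      have e1 : (baseL d.μ (Γ × Γ) ι).lx s (H790.ind d.μ _ S ((baseL d.μ (Γ × Γ) ι).ep i)) =
          H790.ind d.μ _ S (Lp.const 2 d.μ (dl (s, i))) := by
        have e2 := compL_ind (μ := d.μ) (A := (lx s : Ell2 ((Γ × Γ) × ι) →L[ℂ] _)) hS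
          (Lp.const 2 d.μ (ep i))
        rw [compL_const, lx_ep] at e2
        exact e2
      have e3 : adjoint ((fst (baseL d.μ (Γ × Γ) ι)).mp (H553.ind fun g => g ∈ ({1} : Set Γ))) =
          (fst (baseL d.μ (Γ × Γ) ι)).mp (H553.ind fun g => g ∈ ({1} : Set Γ)) :=
        (fst (baseL d.μ (Γ × Γ) ι)).mp_adj (abs_ind_le _)
      have e4 : (fst (baseL d.μ (Γ × Γ) ι)).mp (H553.ind fun g => g ∈ ({1} : Set Γ))
          (H790.ind d.μ _ S (Lp.const 2 d.μ (dl (s, i)))) =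
          H790.ind d.μ _ S (Lp.const 2 d.μ
            (mp ι (fun x : Γ × Γ => (H553.ind fun g => g ∈ ({1} : Set Γ)) x.1) (dl (s, i)))) := by
        have e5 := compL_ind (μ := d.μ)
          (A := (mp ι (fun x : Γ × Γ => (H553.ind fun g => g ∈ ({1} : Set Γ)) x.1) :
            Ell2 ((Γ × Γ) × ι) →L[ℂ] _)) hS (Lp.const 2 d.μ (dl (s, i)))
        rw [compL_const] at e5
        exact e5
      rw [e1, ← adjoint_inner_left, e3, e4]
      by_cases hs : s.1 = 1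
      · have e6 : mp ι (fun x : Γ × Γ => (H553.ind fun g => g ∈ ({1} : Set Γ)) x.1)
            (dl (s, i)) = (dl (s, i) : Ell2 ((Γ × Γ) × ι)) := by
          apply ext_inner_dl
          intro y
          rw [mp, H553.mo_apply (F := fun x : (Γ × Γ) × ι =>
            (H553.ind fun g => g ∈ ({1} : Set Γ)) x.1.1) (C := 1) fun x => abs_ind_le _ _]
          by_cases hy : y = (s, i)
          · rw [hy, ind_pos (P := fun g => g ∈ ({1} : Set Γ)) hs, Complex.ofReal_one, one_mul]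
          · rw [dl_ne hy, mul_zero]
        rw [e6, ← adjoint_inner_left, adjJT_ind d hT hS, adjJT_const, adjUT_dl]
        refine hu _ ?_
        rw [hN]
        refine Submodule.subset_span ⟨i, c⁻¹ • (H790.ind d.μ ℋ S * H34.Ind.lam d R₂ s.2),
          SMulMemClass.smul_mem _ (mul_mem (StarAlgebra.subset_adjoin ℂ _ (Or.inl ⟨S, hS, rfl⟩))
            (StarAlgebra.subset_adjoin ℂ _ (Or.inr ⟨s.2, rfl⟩))), ?_⟩
        have e7 : (Lp.const 2 d.μ (c • ξ i) : Lp ℋ 2 d.μ) = c • Lp.const 2 d.μ (ξ i) := rfl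
        have e8 : H34.Ind.lam d R₂ s.2 (Lp.const 2 d.μ (ξ i)) =
            Lp.const 2 d.μ (R₂ s.2 (ξ i)) := compL_const _ _
        rw [e7, smul_apply, map_smul, smul_smul, inv_mul_cancel₀ hc, one_smul, mul_ap', e8, hs,
          map_one]
        rfl
      · have e6 : mp ι (fun x : Γ × Γ => (H553.ind fun g => g ∈ ({1} : Set Γ)) x.1)
            (dl (s, i)) = (0 : Ell2 ((Γ × Γ) × ι)) := by
          apply ext_inner_dl
          intro y
          rw [mp, H553.mo_apply (F := fun x : (Γ × Γ) × ι =>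
            (H553.ind fun g => g ∈ ({1} : Set Γ)) x.1.1) (C := 1) fun x => abs_ind_le _ _]
          by_cases hy : y = (s, i)
          · rw [hy, ind_neg (P := fun g => g ∈ ({1} : Set Γ)) hs, Complex.ofReal_zero, zero_mul]
            rfl
          · rw [dl_ne hy, mul_zero]
            rfl
        rw [e6]
        have e9 : (Lp.const 2 d.μ (0 : Ell2 ((Γ × Γ) × ι)) : Lp (Ell2 ((Γ × Γ) × ι)) 2 d.μ) = 0 :=
          map_zero _
        rw [e9, map_zero, inner_zero_left]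
    have h2 : adjoint (st (mT d hT) {1}) = st (mT d hT) {1} := (fn_T d hT hh).prj.adj _
    rw [← hζ, ← adjoint_inner_left, h2, h0, inner_zero_left]
  rw [Submodule.orthogonal_orthogonal_eq_closure] at h1
  exact h1

/-- The family is bounded in both legs. -/
theorem bf_T {t : ℝ} (hR : ARep t (RT hT)) (hB : BfL d.μ (Γ × Γ) ι ⊆ H357.BdL2 d.μ Γ Γ ι)
    (i : ι) : (Lp.const 2 d.μ (ξ i) : Lp ℋ 2 d.μ) ∈ BfT d hT := by
  change JT d hT (Lp.const 2 d.μ (ξ i)) ∈ BfL d.μ (Γ × Γ) ι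
  have h1 := JT_fam d hT 1 i
  rw [one_smul, one_smul] at h1
  rw [h1]
  exact (H43.loc2 d hR hB).map 1 _ (H43.bfl_ept i)

end pic

end Vale.Agent.P092.H21
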