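import Vale.Agent.P092.H859.CLG
import Vale.Agent.P092.H714.TSepI
import Vale.Agent.P092.H538.Fst

/-!
P092 (helper21), block D0-INST, part 1: the data `Prj`, `Rep`, bounded vectors of helper859's `Sys`
on the picture `L²(X; ℓ²((Γ × Γ₂) × ι))`, leg 1 with coefficients in leg 2.
-/

set_option linter.all false

open scoped InnerProductSpace ENNReal
open Filter Topology ContinuousLinearMap MeasureTheory

namespace Vale.Agent.P092.H21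

open Vale.Agent.P092.H160 Vale.Agent.P092.H553 Vale.Agent.P092.H432
open Vale.Agent.P092.H132 (Base TRep massX)
open Vale.Agent.P092.H538 (fst)
open Vale.Agent.P092.H790 (CData Ri baseL ept ept_ae ind_ae ri_ae fld_comp ae_comp lxt_ind_ept
  const_ae MEData trep)
open Vale.Agent.P092.H859.CL (Prj Rep Sys Esc BB FF Fn st SysF)

/-! ### Abstract base -/

section abs

variable {Γ ι H D : Type} [Group Γ] [Group D] [Fintype ι] [NormedAddCommGroup H]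
  [InnerProductSpace ℂ H] [CompleteSpace H]

theorem fn_base (B : Base Γ ι H) : Fn B.mp := ⟨B.mp_one, B.mp_add, B.mp_smul, B.mp_mul, B.mp_adj⟩

theorem rep_of_trep {B : Base Γ ι H} {t : ℝ} {R : D → (H →L[ℂ] H)} (h : TRep B t R) : Rep R :=
  ⟨h.mul, h.adj⟩

/-- A set of vectors containing the translates of the trace vectors has dense span. -/
theorem dense_of_total {B : Base Γ ι H} {Bd : Set H}
    (h : ∀ s, ∀ a ∈ B.sc, ∀ i, B.lx s (a (B.ep i)) ∈ Bd) :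
    Dense ((Submodule.span ℂ Bd : Submodule ℂ H) : Set H) := by
  rw [Submodule.dense_iff_topologicalClosure_eq_top, Submodule.topologicalClosure_eq_top_iff]
  rw [Submodule.eq_bot_iff]
  intro ξ hξ
  refine B.total ξ fun s a ha i => ?_
  exact (Submodule.mem_orthogonal _ _).1 hξ _ (Submodule.subset_span (h s a ha i))

/-- The projections and the left translations. -/
theorem lx_mB (B : Base Γ ι H) (s : Γ) (S : Set Γ) :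
    B.lx s * st B.mp S = st B.mp {g | s⁻¹ * g ∈ S} * B.lx s := by
  rw [st, B.lx_mp (abs_ind_le _)]
  rfl

theorem sc_mB (B : Base Γ ι H) {a : H →L[ℂ] H} (ha : a ∈ B.sc) (S : Set Γ) :
    a * st B.mp S = st B.mp S * a := B.sc_mp a ha (abs_ind_le _)

end abs

/-! ### Vectors bounded for the second leg -/

section lb

variable {Γ Γ₂ ι : Type} [Group Γ] [Group Γ₂]

/-- The vector `v` is a contraction for the second leg: `δ_q ↦ λ_(1,q) v` is a contraction. -/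
def Lb (v : Ell2 ((Γ × Γ₂) × ι)) : Prop :=
  ∀ (s : Finset Γ₂) (a : Γ₂ → ℂ), ‖∑ q ∈ s, a q • lx ((1 : Γ), q) v‖ ^ 2 ≤ ∑ q ∈ s, ‖a q‖ ^ 2

theorem Lb.norm {v : Ell2 ((Γ × Γ₂) × ι)} (h : Lb v) : ‖v‖ ≤ 1 := by
  have h1 := h {1} (fun _ => 1)
  have h2 : (lx ((1 : Γ), (1 : Γ₂)) : Ell2 ((Γ × Γ₂) × ι) →L[ℂ] _) = 1 := lx_one
  rw [Finset.sum_singleton, Finset.sum_singleton, one_smul, h2, norm_one, one_pow] at h1
  exact (pow_le_one_iff_of_nonneg (norm_nonneg _) two_ne_zero).1 h1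

theorem lb_zero : Lb (0 : Ell2 ((Γ × Γ₂) × ι)) := by
  intro s a
  simp only [map_zero, smul_zero, Finset.sum_const_zero, norm_zero]
  rw [zero_pow two_ne_zero]
  exact Finset.sum_nonneg fun q _ => by positivity

/-- Contractions commuting with the translations of the second leg preserve bounded vectors. -/
theorem Lb.map {v : Ell2 ((Γ × Γ₂) × ι)} (h : Lb v)
    {T : Ell2 ((Γ × Γ₂) × ι) →L[ℂ] Ell2 ((Γ × Γ₂) × ι)} (hT : ∀ ξ, ‖T ξ‖ ≤ ‖ξ‖)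
    (hc : ∀ (q : Γ₂) ξ, T (lx ((1 : Γ), q) ξ) = lx ((1 : Γ), q) (T ξ)) : Lb (T v) := by
  intro s a
  have h1 : ∑ q ∈ s, a q • lx ((1 : Γ), q) (T v) = T (∑ q ∈ s, a q • lx ((1 : Γ), q) v) := by
    rw [map_sum]
    refine Finset.sum_congr rfl fun q _ => ?_
    rw [map_smul, hc]
  rw [h1]
  exact (pow_le_pow_left₀ (norm_nonneg _) (hT _) 2).trans (h s a)

/-- Norm of a finite sum of multiples of distinct basis vectors. -/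
theorem norm_sq_sum_dl {X Y : Type} (f : Y → X) (hf : Function.Injective f) (s : Finset Y)
    (a : Y → ℂ) : ‖∑ q ∈ s, a q • (dl (f q) : Ell2 X)‖ ^ 2 = ∑ q ∈ s, ‖a q‖ ^ 2 := by
  classical
  have h1 : (⟪∑ q ∈ s, a q • (dl (f q) : Ell2 X), ∑ q ∈ s, a q • (dl (f q) : Ell2 X)⟫_ℂ) =
      ((∑ q ∈ s, ‖a q‖ ^ 2 : ℝ) : ℂ) := by
    rw [sum_inner]
    have h2 : ∀ q ∈ s, ⟪a q • (dl (f q) : Ell2 X), ∑ p ∈ s, a p • (dl (f p) : Ell2 X)⟫_ℂ =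
        ((‖a q‖ ^ 2 : ℝ) : ℂ) := by
      intro q hq
      rw [inner_sum, Finset.sum_eq_single q]
      · rw [inner_smul_left, inner_smul_right, inner_self_eq_norm_sq_to_K, norm_dl]
        rw [← mul_assoc, mul_comm ((starRingEnd ℂ) (a q)) (a q), Complex.mul_conj]
        simp [Complex.normSq_eq_norm_sq]
      · intro p _ hp
        rw [inner_smul_left, inner_smul_right, inner_dl, dl, lp.single_apply_ne _ _ _
          (fun h => hp (hf h).symm)]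
        simp
      · intro h
        exact absurd hq h
    rw [Finset.sum_congr rfl h2]
    push_cast
    rfl
  rw [inner_self_eq_norm_sq_to_K] at h1
  have h3 := congrArg Complex.re h1
  rw [Complex.ofReal_re] at h3
  rw [← h3]
  norm_cast

/-- Basis vectors are bounded. -/
theorem lb_dl (x : (Γ × Γ₂) × ι) : Lb (dl x : Ell2 ((Γ × Γ₂) × ι)) := by
  intro s a
  have h1 : ∀ q : Γ₂, lx ((1 : Γ), q) (dl x : Ell2 ((Γ × Γ₂) × ι)) =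
      dl ((x.1.1, q * x.1.2), x.2) := by
    intro q
    obtain ⟨⟨g, h⟩, i⟩ := x
    rw [lx_dl, Prod.mk_mul_mk, one_mul]
  simp only [h1]
  rw [norm_sq_sum_dl (fun q : Γ₂ => (((x.1.1, q * x.1.2), x.2) : (Γ × Γ₂) × ι))
    (fun p q h => by
      simp only [Prod.mk.injEq, mul_left_inj, and_true, true_and] at h
      exact h) s a]

/-- Bounded vectors: convex combinations. -/
theorem Lb.avg {v w : Ell2 ((Γ × Γ₂) × ι)} (hv : Lb v) (hw : Lb w) {c e : ℂ}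
    (hce : ‖c‖ + ‖e‖ ≤ 1) : Lb (c • v + e • w) := by
  intro s a
  have h1 : ∑ q ∈ s, a q • lx ((1 : Γ), q) (c • v + e • w) =
      c • ∑ q ∈ s, a q • lx ((1 : Γ), q) v + e • ∑ q ∈ s, a q • lx ((1 : Γ), q) w := by
    rw [Finset.smul_sum, Finset.smul_sum, ← Finset.sum_add_distrib]
    refine Finset.sum_congr rfl fun q _ => ?_
    rw [map_add, map_smul, map_smul, smul_add, smul_comm (a q) c, smul_comm (a q) e]
  obtain ⟨M, hM⟩ : ∃ M, M = ∑ q ∈ s, ‖a q‖ ^ 2 := ⟨_, rfl⟩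
  have hM0 : 0 ≤ M := by rw [hM]; exact Finset.sum_nonneg fun q _ => by positivity
  have e1 : ‖∑ q ∈ s, a q • lx ((1 : Γ), q) v‖ ≤ Real.sqrt M :=
    Real.le_sqrt_of_sq_le (by rw [hM]; exact hv s a)
  have e2 : ‖∑ q ∈ s, a q • lx ((1 : Γ), q) w‖ ≤ Real.sqrt M :=
    Real.le_sqrt_of_sq_le (by rw [hM]; exact hw s a)
  have e3 : ‖c • ∑ q ∈ s, a q • lx ((1 : Γ), q) v + e • ∑ q ∈ s, a q • lx ((1 : Γ), q) w‖ ≤
      Real.sqrt M := by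
    refine (norm_add_le _ _).trans ?_
    rw [norm_smul, norm_smul]
    have := Real.sqrt_nonneg M
    have := norm_nonneg c
    have := norm_nonneg e
    nlinarith
  rw [h1, ← hM, ← Real.sq_sqrt hM0]
  exact pow_le_pow_left₀ (norm_nonneg _) e3 2

end lb

/-! ### Bounded fields -/

section bd

variable {X : Type} [MeasurableSpace X] (μ : Measure X) [IsProbabilityMeasure μ]
  {Γ Γ₂ ι : Type} [Group Γ] [Countable Γ] [Group Γ₂] [Countable Γ₂] [Fintype ι]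

/-- Fields of vectors bounded for the second leg. -/
def BdL2 (Γ Γ₂ ι : Type) [Group Γ] [Countable Γ] [Group Γ₂] [Countable Γ₂] [Fintype ι] :
    Set (Lp (Ell2 ((Γ × Γ₂) × ι)) 2 μ) :=
  {ξ | ∀ᵐ x ∂μ, Lb (ξ x : Ell2 ((Γ × Γ₂) × ι))}

variable {μ}

theorem bd2_norm {ξ : Lp (Ell2 ((Γ × Γ₂) × ι)) 2 μ} (h : ξ ∈ BdL2 μ Γ Γ₂ ι) : ‖ξ‖ ≤ 1 := by
  have h0 : ∀ᵐ x ∂μ, ‖(ξ x : Ell2 ((Γ × Γ₂) × ι))‖ ≤ 1 := by
    have h' : ∀ᵐ x ∂μ, Lb (ξ x : Ell2 ((Γ × Γ₂) × ι)) := h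
    filter_upwards [h'] with x hx
    exact hx.norm
  have h1 := Lp.norm_le_of_ae_bound (p := 2) zero_le_one h0
  simpa [measureUnivNNReal] using h1

/-- Constant-field operators which are contractions commuting with the second leg. -/
theorem bd2_comp {T : Ell2 ((Γ × Γ₂) × ι) →L[ℂ] Ell2 ((Γ × Γ₂) × ι)} (hT : ∀ ξ, ‖T ξ‖ ≤ ‖ξ‖)
    (hc : ∀ (q : Γ₂) ξ, T (lx ((1 : Γ), q) ξ) = lx ((1 : Γ), q) (T ξ))
    {ξ : Lp (Ell2 ((Γ × Γ₂) × ι)) 2 μ} (h : ξ ∈ BdL2 μ Γ Γ₂ ι) :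
    T.compLpL 2 μ ξ ∈ BdL2 μ Γ Γ₂ ι := by
  change ∀ᵐ x ∂μ, _
  have h0 : ∀ᵐ x ∂μ, Lb (ξ x : Ell2 ((Γ × Γ₂) × ι)) := h
  filter_upwards [fld_comp (μ := μ) T ξ, h0] with x h1 h2
  rw [h1]
  exact h2.map hT hc

theorem bd2_ind {S : Set X} (hS : MeasurableSet S)
    {ξ : Lp (Ell2 ((Γ × Γ₂) × ι)) 2 μ} (h : ξ ∈ BdL2 μ Γ Γ₂ ι) :
    H790.ind μ _ S ξ ∈ BdL2 μ Γ Γ₂ ι := by
  change ∀ᵐ x ∂μ, _
  have h0 : ∀ᵐ x ∂μ, Lb (ξ x : Ell2 ((Γ × Γ₂) × ι)) := h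
  filter_upwards [ind_ae hS ξ, h0] with x h1 h2
  rw [h1]
  by_cases hx : x ∈ S
  · rw [Set.indicator_of_mem hx]; exact h2
  · rw [Set.indicator_of_notMem hx]; exact lb_zero

theorem bd2_const {v : Ell2 ((Γ × Γ₂) × ι)} (h : Lb v) :
    (Lp.constL 2 μ ℂ v : Lp (Ell2 ((Γ × Γ₂) × ι)) 2 μ) ∈ BdL2 μ Γ Γ₂ ι := by
  change ∀ᵐ x ∂μ, _
  filter_upwards [const_ae (μ := μ) v] with x h1
  rw [h1]
  exact h

/-- The translates of the trace vectors are bounded (base of `Γ × Γ₂`). -/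
theorem bd2_ep (s : Γ × Γ₂)
    (a : Lp (Ell2 ((Γ × Γ₂) × ι)) 2 μ →L[ℂ] Lp (Ell2 ((Γ × Γ₂) × ι)) 2 μ)
    (ha : a ∈ (baseL μ (Γ × Γ₂) ι).sc) (i : ι) :
    (baseL μ (Γ × Γ₂) ι).lx s (a ((baseL μ (Γ × Γ₂) ι).ep i)) ∈ BdL2 μ Γ Γ₂ ι := by
  obtain ⟨S, hS, rfl⟩ := ha
  have e : (baseL μ (Γ × Γ₂) ι).lx s (H790.ind μ _ S ((baseL μ (Γ × Γ₂) ι).ep i)) =
      H790.ind μ _ S (Lp.constL 2 μ ℂ (dl (s, i) : Ell2 ((Γ × Γ₂) × ι))) := lxt_ind_ept s hS i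
  rw [e]
  exact bd2_ind hS (bd2_const (lb_dl _))

theorem bd2_mp {F : Γ → ℝ} (hF : ∀ g, |F g| ≤ 1) {ξ : Lp (Ell2 ((Γ × Γ₂) × ι)) 2 μ}
    (h : ξ ∈ BdL2 μ Γ Γ₂ ι) : (fst (baseL μ (Γ × Γ₂) ι)).mp F ξ ∈ BdL2 μ Γ Γ₂ ι := by
  have h1 : ∀ x : Γ × Γ₂, |F x.1| ≤ 1 := fun x => hF _
  refine bd2_comp (T := mp ι (fun x : Γ × Γ₂ => F x.1)) (fun ξ => ?_) (fun q ξ => ?_) h
  · have := norm_mp_le (ι := ι) h1 ξ
    linarith
  · rw [lx_mp h1]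
    congr 2
    funext x
    simp

theorem bd2_dense : Dense ((Submodule.span ℂ (BdL2 μ Γ Γ₂ ι) :
    Submodule ℂ (Lp (Ell2 ((Γ × Γ₂) × ι)) 2 μ)) : Set (Lp (Ell2 ((Γ × Γ₂) × ι)) 2 μ)) :=
  dense_of_total (B := baseL μ (Γ × Γ₂) ι) fun s a ha i => bd2_ep s a ha i

end bd

/-! ### The picture -/

section pic

variable {D Λ Γ Γ₂ ι : Type} [Group D] [Group Λ] [Countable Λ] [Group Γ] [Countable Γ]
  [Group Γ₂] [Countable Γ₂] [Fintype ι] {t : ℝ}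
  {R : Λ → (Ell2 ((Γ × Γ₂) × ι) →L[ℂ] Ell2 ((Γ × Γ₂) × ι))} (d : CData D Λ)

/-- The coordinate projections of leg 1 on the picture. -/
noncomputable def mL (d : CData D Λ) (Γ Γ₂ ι : Type) [Group Γ] [Countable Γ] [Group Γ₂]
    [Countable Γ₂] [Fintype ι] (S : Set Γ) :
    Lp (Ell2 ((Γ × Γ₂) × ι)) 2 d.μ →L[ℂ] Lp (Ell2 ((Γ × Γ₂) × ι)) 2 d.μ :=
  st (fst (baseL d.μ (Γ × Γ₂) ι)).mp S

/-- The masses of leg 1. -/
noncomputable def msL (d : CData D Λ) (R : Λ → (Ell2 ((Γ × Γ₂) × ι) →L[ℂ] Ell2 ((Γ × Γ₂) × ι)))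
    (u : D) (P : Set Γ) : ℝ :=
  massX (fst (baseL d.μ (Γ × Γ₂) ι)) (Ri d R) u (ind fun g => g ∈ P)

theorem prj_mL : Prj (mL d Γ Γ₂ ι) := (fn_base _).prj

theorem rep_ri (hR : ARep t R) : Rep (Ri d R) := rep_of_trep (trep d hR)

theorem bd2_map (hR : ARep t R) (v : D) {ξ : Lp (Ell2 ((Γ × Γ₂) × ι)) 2 d.μ}
    (h : ξ ∈ BdL2 d.μ Γ Γ₂ ι) : Ri d R v ξ ∈ BdL2 d.μ Γ Γ₂ ι := by
  change ∀ᵐ x ∂d.μ, _
  have h0 : ∀ᵐ x ∂d.μ, Lb (ξ x : Ell2 ((Γ × Γ₂) × ι)) := h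
  filter_upwards [ri_ae d hR.opNorm_le v ξ, ae_comp (d.mp v⁻¹) h0] with x h1 h2
  rw [h1]
  exact h2.map (fun ξ => hR.norm_le _ ξ) (fun q ξ => (hR.ra _).app _ ξ)

/-- **`Sys` on the picture** from separation and no regular mass. -/
theorem sys_of (hR : ARep t R) {A : Subgroup D} {G1 G2 : Γ → ℝ}
    (sep : ∀ u, ∀ η ∈ BdL2 d.μ Γ Γ₂ ι, ∀ ζ ∈ BdL2 d.μ Γ Γ₂ ι, ∀ (F G P : Set Γ) (T : Finset Γ),
      (∀ x ∈ F, ∀ y ∈ G, x⁻¹ * y ∈ P) →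
      (∀ x₁ ∈ F, ∀ y₁ ∈ G, ∀ x₂ ∈ F, ∀ y₂ ∈ G, x₁⁻¹ * y₁ = x₂⁻¹ * y₂ → x₂ * x₁⁻¹ ∈ T) →
      ‖⟪mL d Γ Γ₂ ι G ζ, Ri d R u (mL d Γ Γ₂ ι F η)⟫_ℂ‖ ≤
        Real.sqrt T.card * Real.sqrt (msL d R u P))
    (nrm : ∀ ε : ℝ, 0 < ε → ∃ r, ∀ u ∈ A, msL d R u (BB G1 G2 r) ≤ ε)
    (nrv : ∀ ξ ∈ BdL2 d.μ Γ Γ₂ ι, ∀ ε : ℝ, 0 < ε →
      ∃ r, ∀ w ∈ A, ‖mL d Γ Γ₂ ι (BB G1 G2 r) (Ri d R w ξ)‖ ≤ ε) :
    Sys (mL d Γ Γ₂ ι) (Ri d R) (BdL2 d.μ Γ Γ₂ ι) (msL d R) A G1 G2 where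
  prj := prj_mL d
  rep := rep_ri d hR
  dense := bd2_dense
  norm := fun ξ hξ => bd2_norm hξ
  map := fun v ξ hξ => bd2_map d hR v hξ
  sep := sep
  nrm := nrm
  nrv := nrv

/-- **`SysF` on the picture** from separation and no regular mass. -/
theorem sysF_of (hR : ARep t R) {A : Subgroup D} {G1 G2 : Γ → ℝ}
    (sep : ∀ u, ∀ η ∈ BdL2 d.μ Γ Γ₂ ι, ∀ ζ ∈ BdL2 d.μ Γ Γ₂ ι, ∀ (F G P : Set Γ) (T : Finset Γ),
      (∀ x ∈ F, ∀ y ∈ G, x⁻¹ * y ∈ P) →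
      (∀ x₁ ∈ F, ∀ y₁ ∈ G, ∀ x₂ ∈ F, ∀ y₂ ∈ G, x₁⁻¹ * y₁ = x₂⁻¹ * y₂ → x₂ * x₁⁻¹ ∈ T) →
      ‖⟪mL d Γ Γ₂ ι G ζ, Ri d R u (mL d Γ Γ₂ ι F η)⟫_ℂ‖ ≤
        Real.sqrt T.card * Real.sqrt (msL d R u P))
    (nrm : ∀ ε : ℝ, 0 < ε → ∃ r, ∀ u ∈ A, msL d R u (BB G1 G2 r) ≤ ε)
    (nrv : ∀ ξ ∈ BdL2 d.μ Γ Γ₂ ι, ∀ ε : ℝ, 0 < ε →
      ∃ r, ∀ w ∈ A, ‖mL d Γ Γ₂ ι (BB G1 G2 r) (Ri d R w ξ)‖ ≤ ε) :
    SysF (fst (baseL d.μ (Γ × Γ₂) ι)).mp (Ri d R) (BdL2 d.μ Γ Γ₂ ι) (msL d R) A G1 G2 where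
  fn := fn_base _
  sys := sys_of d hR sep nrm nrv
  mpb := fun F hF ξ hξ => bd2_mp hF hξ

end pic

end Vale.Agent.P092.H21
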