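import Vale.Agent.P092.H859.CLN

/-!
P092 (helper21), all `t`: restriction of the input of the engine (letters of H859/CLD) to the range of
a projection `P = R 1` which commutes with the multiplication operators.
-/

set_option linter.all false

open scoped InnerProductSpace Pointwise
open Filter Topology ContinuousLinearMap TopologicalSpace

namespace Vale.Agent.P092.H21

open Vale.Agent.P092.H553 (ind ind_nonneg ind_le_one abs_ind_le ind_pos ind_neg)
open Vale.Agent.P092.H859.CL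

section kp

variable {K : Type} [NormedAddCommGroup K] [InnerProductSpace ℂ K] [CompleteSpace K]

/-- Projections. -/
structure Pj (P : K →L[ℂ] K) : Prop where
  idem : P * P = P
  adj : adjoint P = P

/-- The range of a projection. -/
def KP (P : K →L[ℂ] K) : Submodule ℂ K := LinearMap.ker ((P - 1 : K →L[ℂ] K) : K →ₗ[ℂ] K)

theorem mem_KP {P : K →L[ℂ] K} {ξ : K} : ξ ∈ KP P ↔ P ξ = ξ := by
  rw [KP, LinearMap.mem_ker]
  change P ξ - ξ = 0 ↔ _
  rw [sub_eq_zero]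

instance (P : K →L[ℂ] K) : CompleteSpace (KP P) := by
  have h : IsClosed ((KP P : Submodule ℂ K) : Set K) := by
    have h1 : ((KP P : Submodule ℂ K) : Set K) = {ξ | P ξ = ξ} := by
      ext ξ
      exact mem_KP
    rw [h1]
    exact isClosed_eq P.continuous continuous_id
  exact h.completeSpace_coe

variable {P : K →L[ℂ] K}

theorem KP_ap (ξ : KP P) : P (ξ : K) = ξ := mem_KP.1 ξ.2

theorem Pj.mem (hP : Pj P) (ξ : K) : P ξ ∈ KP P := by
  rw [mem_KP, ← mul_ap', hP.idem]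

/-- Compression to the range of a projection. -/
noncomputable def cut (hP : Pj P) (T : K →L[ℂ] K) : KP P →L[ℂ] KP P :=
  ((P * T) ∘L (KP P).subtypeL).codRestrict (KP P) fun ξ => hP.mem (T (ξ : K))

theorem cut_coe (hP : Pj P) (T : K →L[ℂ] K) (ξ : KP P) : ((cut hP T ξ : KP P) : K) = P (T ξ) := rfl

theorem cut_ap (hP : Pj P) {T : K →L[ℂ] K} (hT : T * P = P * T) (ξ : KP P) :
    ((cut hP T ξ : KP P) : K) = T ξ := by
  rw [cut_coe, ← mul_ap', ← hT, mul_ap', KP_ap]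

theorem cut_add (hP : Pj P) (S T : K →L[ℂ] K) : cut hP (S + T) = cut hP S + cut hP T := by
  ext ξ
  change ((cut hP (S + T) ξ : KP P) : K) = (cut hP S ξ : K) + (cut hP T ξ : K)
  rw [cut_coe, cut_coe, cut_coe, add_apply, map_add]

theorem cut_sub (hP : Pj P) (S T : K →L[ℂ] K) : cut hP (S - T) = cut hP S - cut hP T := by
  ext ξ
  change ((cut hP (S - T) ξ : KP P) : K) = (cut hP S ξ : K) - (cut hP T ξ : K)
  rw [cut_coe, cut_coe, cut_coe, sub_apply, map_sub]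

theorem cut_smul (hP : Pj P) (c : ℂ) (T : K →L[ℂ] K) : cut hP (c • T) = c • cut hP T := by
  ext ξ
  change ((cut hP (c • T) ξ : KP P) : K) = c • (cut hP T ξ : K)
  rw [cut_coe, cut_coe, smul_apply, map_smul]

theorem cut_one (hP : Pj P) : cut hP (1 : K →L[ℂ] K) = 1 := by
  ext ξ
  change ((cut hP 1 ξ : KP P) : K) = (ξ : K)
  rw [cut_coe]
  exact KP_ap ξ

theorem cut_P (hP : Pj P) : cut hP P = 1 := by
  ext ξ
  change ((cut hP P ξ : KP P) : K) = (ξ : K)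
  rw [cut_coe, KP_ap, KP_ap]

theorem cut_mul (hP : Pj P) {S : K →L[ℂ] K} (hS : S * P = P * S) (T : K →L[ℂ] K) :
    cut hP (S * T) = cut hP S * cut hP T := by
  ext ξ
  change ((cut hP (S * T) ξ : KP P) : K) = ((cut hP S (cut hP T ξ) : KP P) : K)
  rw [cut_ap hP hS, cut_coe, cut_coe, mul_ap']
  have h := congrArg (fun X : K →L[ℂ] K => X (T ξ)) hS
  exact h.symm

theorem cut_inner (hP : Pj P) (T : K →L[ℂ] K) (ξ η : KP P) :
    ⟪cut hP T ξ, η⟫_ℂ = ⟪T (ξ : K), (η : K)⟫_ℂ := by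
  rw [Submodule.coe_inner, cut_coe, ← adjoint_inner_right, hP.adj, KP_ap]

theorem cut_inner' (hP : Pj P) (T : K →L[ℂ] K) (ξ η : KP P) :
    ⟪η, cut hP T ξ⟫_ℂ = ⟪(η : K), T (ξ : K)⟫_ℂ := by
  rw [Submodule.coe_inner, cut_coe, ← adjoint_inner_left, hP.adj, KP_ap]

theorem cut_adj (hP : Pj P) (T : K →L[ℂ] K) : adjoint (cut hP T) = cut hP (adjoint T) := by
  symm
  rw [ContinuousLinearMap.eq_adjoint_iff]
  intro ξ η
  rw [cut_inner, cut_inner', adjoint_inner_left]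

theorem cut_norm (hP : Pj P) {T : K →L[ℂ] K} (hT : T * P = P * T) (ξ : KP P) :
    ‖cut hP T ξ‖ = ‖T (ξ : K)‖ := by
  rw [Submodule.coe_norm, cut_ap hP hT]

theorem Pj.norm_le (hP : Pj P) (ξ : K) : ‖P ξ‖ ≤ ‖ξ‖ := by
  have h1 : ‖P ξ‖ ^ 2 = RCLike.re ⟪P ξ, ξ⟫_ℂ := by
    have h2 : ⟪P ξ, ξ⟫_ℂ = ⟪P ξ, P ξ⟫_ℂ := by
      conv_lhs => rw [← hP.idem]
      rw [mul_ap', ← adjoint_inner_right, hP.adj]
    rw [h2, inner_self_eq_norm_sq]
  have h3 := re_inner_le_norm (𝕜 := ℂ) (P ξ) ξ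
  have h4 := norm_nonneg (P ξ)
  rcases h4.lt_or_eq with h5 | h5
  · have h6 : ‖P ξ‖ * ‖P ξ‖ ≤ ‖P ξ‖ * ‖ξ‖ := by
      rw [← sq, h1]
      exact h3
    exact le_of_mul_le_mul_left h6 h5
  · rw [← h5]; exact norm_nonneg _

theorem cut_norm_le (hP : Pj P) (T : K →L[ℂ] K) (ξ : KP P) : ‖cut hP T ξ‖ ≤ ‖T (ξ : K)‖ := by
  rw [Submodule.coe_norm, cut_coe]
  exact hP.norm_le _

theorem tendsto_KP {α : Type} {l : Filter α} {f : α → KP P} {x : KP P} :
    Tendsto f l (𝓝 x) ↔ Tendsto (fun a => (f a : K)) l (𝓝 (x : K)) := tendsto_subtype_rng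

end kp

section data

variable {Γ D K Y : Type} [Group Γ] [Group D] [NormedAddCommGroup K] [InnerProductSpace ℂ K]
  [CompleteSpace K] {mp : (Γ → ℝ) → (K →L[ℂ] K)} {R : D → (K →L[ℂ] K)} {Bd : Set K}
  {ms : D → Set Γ → ℝ} {A : Subgroup D} {G1 G2 : Γ → ℝ} {bp : Γ → Y} {l l' : Filter D}
  {lam : Γ → (K →L[ℂ] K)} {W : Set (K →L[ℂ] K)} {C : ℝ}
  {m : Set Γ → (K →L[ℂ] K)}

/-- `R 1` is a projection. -/
theorem pj_one (h : Rep R) : Pj (R 1) :=
  ⟨by rw [← h.mul, mul_one], h.one_adj⟩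

theorem rep_comm (h : Rep R) (v : D) : R v * R 1 = R 1 * R v := by rw [h.one_mul', h.mul_one']

/-- The bounded vectors of the range. -/
def cutB (P : K →L[ℂ] K) (Bd : Set K) : Set (KP P) := {ξ | (ξ : K) ∈ Bd}

theorem Fn.cut (h : Fn mp) {P : K →L[ℂ] K} (hP : Pj P)
    (hc : ∀ {F : Γ → ℝ} {C : ℝ}, (∀ g, |F g| ≤ C) → mp F * P = P * mp F) :
    Fn (fun F => H21.cut hP (mp F)) where
  one := by rw [h.one, cut_one]
  add := fun hF hG => by rw [h.add hF hG, cut_add]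
  smul := fun c {F} {C} hF => by rw [h.smul c hF, cut_smul]
  mul := fun hF hG => by rw [h.mul hF hG, cut_mul hP (hc hF)]
  adj := fun hF => by rw [cut_adj, h.adj hF]

theorem mc_cut {P : K →L[ℂ] K} (hP : Pj P) (F : Γ → ℂ) :
    mc (fun F => H21.cut hP (mp F)) F = H21.cut hP (mc mp F) := by
  rw [mc, mc, cut_add, cut_smul]

theorem Rep.cut (h : Rep R) : Rep (fun v => H21.cut (pj_one h) (R v)) where
  mul := fun v w => by rw [h.mul, cut_mul _ (rep_comm h v)]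
  adj := fun v => by rw [cut_adj, h.adj]

theorem rep_cut_one (h : Rep R) : H21.cut (pj_one h) (R 1) = 1 := cut_P _

theorem Prj.cut (h : Prj m) {P : K →L[ℂ] K} (hP : Pj P) (hc : ∀ S, m S * P = P * m S) :
    Prj (fun S => H21.cut hP (m S)) where
  adj := fun S => by rw [cut_adj, h.adj]
  inter := fun S T => by rw [h.inter, cut_mul hP (hc S)]
  compl := fun S => by rw [h.compl, cut_sub, cut_one]

/-- The span of the bounded vectors of the range is dense. -/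
theorem cut_dense (h : Rep R) (hd : Dense ((Submodule.span ℂ Bd : Submodule ℂ K) : Set K))
    (hmap : ∀ ξ ∈ Bd, R 1 ξ ∈ Bd) :
    Dense ((Submodule.span ℂ (cutB (R 1) Bd) : Submodule ℂ (KP (R 1))) : Set (KP (R 1))) := by
  have hP := pj_one h
  have key : ∀ y ∈ Submodule.span ℂ Bd, (⟨R 1 y, hP.mem y⟩ : KP (R 1)) ∈
      Submodule.span ℂ (cutB (R 1) Bd) := by
    intro y hy
    induction hy using Submodule.span_induction with
    | mem x hx => exact Submodule.subset_span (hmap x hx)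
    | zero =>
      have e : (⟨R 1 0, hP.mem 0⟩ : KP (R 1)) = 0 := by
        apply Subtype.ext
        simp
      rw [e]; exact Submodule.zero_mem _
    | add x y _ _ hx hy =>
      have e : (⟨R 1 (x + y), hP.mem (x + y)⟩ : KP (R 1)) =
          ⟨R 1 x, hP.mem x⟩ + ⟨R 1 y, hP.mem y⟩ := by
        apply Subtype.ext
        exact map_add _ _ _
      rw [e]; exact Submodule.add_mem _ hx hy
    | smul c x _ hx =>
      have e : (⟨R 1 (c • x), hP.mem (c • x)⟩ : KP (R 1)) = c • ⟨R 1 x, hP.mem x⟩ := by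
        apply Subtype.ext
        exact map_smul _ _ _
      rw [e]; exact Submodule.smul_mem _ _ hx
  intro ξ
  rw [Metric.mem_closure_iff]
  intro ε hε
  obtain ⟨y, hy, hyd⟩ := Metric.mem_closure_iff.1 (hd (ξ : K)) ε hε
  refine ⟨_, key y hy, ?_⟩
  rw [Subtype.dist_eq, dist_eq_norm]
  have e : (ξ : K) - R 1 y = R 1 ((ξ : K) - y) := by rw [map_sub, KP_ap]
  change ‖(ξ : K) - R 1 y‖ < ε
  rw [e]
  rw [dist_eq_norm] at hyd
  exact (hP.norm_le _).trans_lt hyd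

/-- **`Sys` on the range of `R 1`.** -/
theorem Sys.cut (h : Sys m R Bd ms A G1 G2) (hc : ∀ S, m S * R 1 = R 1 * m S) :
    Sys (fun S => H21.cut (pj_one h.rep) (m S)) (fun v => H21.cut (pj_one h.rep) (R v))
      (cutB (R 1) Bd) ms A G1 G2 where
  prj := Prj.cut h.prj _ hc
  rep := Rep.cut h.rep
  dense := cut_dense h.rep h.dense (h.map 1)
  norm := fun ξ hξ => h.norm _ hξ
  map := fun v ξ hξ => by
    change ((H21.cut (pj_one h.rep) (R v) ξ : KP (R 1)) : K) ∈ Bd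
    rw [cut_ap _ (rep_comm h.rep v)]
    exact h.map v _ hξ
  sep := fun u η hη ζ hζ F G P T h1 h2 => by
    have h3 := h.sep u _ hη _ hζ F G P T h1 h2
    have e : ⟪H21.cut (pj_one h.rep) (m G) ζ, H21.cut (pj_one h.rep) (R u)
        (H21.cut (pj_one h.rep) (m F) η)⟫_ℂ = ⟪m G (ζ : K), R u (m F (η : K))⟫_ℂ := by
      rw [Submodule.coe_inner, cut_ap _ (hc G), cut_ap _ (rep_comm h.rep u), cut_ap _ (hc F)]
    rw [e]
    exact h3
  nrm := h.nrm
  nrv := fun ξ hξ ε hε => by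
    obtain ⟨r, hr⟩ := h.nrv _ hξ ε hε
    refine ⟨r, fun w hw => ?_⟩
    rw [cut_norm _ (hc _), cut_ap _ (rep_comm h.rep w)]
    exact hr w hw

/-- **`SysF` on the range of `R 1`.** -/
theorem SysF.cut (h : SysF mp R Bd ms A G1 G2)
    (hc : ∀ {F : Γ → ℝ} {C : ℝ}, (∀ g, |F g| ≤ C) → mp F * R 1 = R 1 * mp F) :
    SysF (fun F => H21.cut (pj_one h.sys.rep) (mp F)) (fun v => H21.cut (pj_one h.sys.rep) (R v))
      (cutB (R 1) Bd) ms A G1 G2 where
  fn := Fn.cut h.fn _ hc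
  sys := Sys.cut h.sys fun S => hc (abs_ind_le _)
  mpb := fun F hF ξ hξ => by
    change ((H21.cut (pj_one h.sys.rep) (mp F) ξ : KP (R 1)) : K) ∈ Bd
    rw [cut_ap _ (hc hF)]
    exact h.mpb F hF _ hξ

theorem Esc.cut (h : Esc m R Bd A l) (hR : Rep R) (hc : ∀ S, m S * R 1 = R 1 * m S) :
    Esc (fun S => H21.cut (pj_one hR) (m S)) (fun v => H21.cut (pj_one hR) (R v))
      (cutB (R 1) Bd) A l where
  mem := h.mem
  esc := fun g ξ hξ => by
    refine (h.esc g _ hξ).congr fun w => ?_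
    rw [cut_norm _ (hc _), cut_ap _ (rep_comm hR w)]

theorem P_cut (hR : Rep R) (hc : ∀ S, m S * R 1 = R 1 * m S) (w : D) (S : Set Γ)
    (ξ : KP (R 1)) :
    ((P (fun S => H21.cut (pj_one hR) (m S)) (fun v => H21.cut (pj_one hR) (R v)) w S ξ :
      KP (R 1)) : K) = P m R w S (ξ : K) := by
  rw [P_ap, P_ap, cut_ap _ (rep_comm hR _), cut_ap _ (hc S), cut_ap _ (rep_comm hR _)]

theorem Full.cut (h : Full m R G1 G2 l) (hR : Rep R) (hc : ∀ S, m S * R 1 = R 1 * m S) :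
    Full (fun S => H21.cut (pj_one hR) (m S)) (fun v => H21.cut (pj_one hR) (R v)) G1 G2 l := by
  intro ξ
  rw [tendsto_KP]
  refine ((h (ξ : K)).congr fun w => (P_cut hR hc w _ ξ).symm).mono_right (le_of_eq ?_)
  rw [cut_ap _ (rep_comm hR 1)]

/-- Fullness on the range implies fullness. -/
theorem full_of_cut (hR : Rep R) (hc : ∀ S, m S * R 1 = R 1 * m S)
    (h : Full (fun S => H21.cut (pj_one hR) (m S)) (fun v => H21.cut (pj_one hR) (R v)) G1 G2 l) :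
    Full m R G1 G2 l := by
  intro ξ
  have h1 := tendsto_KP.1 (h ⟨R 1 ξ, (pj_one hR).mem ξ⟩)
  rw [cut_ap _ (rep_comm hR 1)] at h1
  refine (h1.congr fun w => ?_).mono_right (le_of_eq ?_)
  · rw [P_cut hR hc, P_ap, P_ap]
    change R w⁻¹ (m _ (R w (R 1 ξ))) = _
    rw [← mul_ap' (R w) (R 1), hR.mul_one']
  · change 𝓝 (R 1 (R 1 ξ)) = _
    rw [← mul_ap', ← hR.mul, mul_one]

theorem Slow.cut [TopologicalSpace D] (h : Slow mp R Bd) (hR : Rep R)
    (hc : ∀ {F : Γ → ℝ} {C : ℝ}, (∀ g, |F g| ≤ C) → mp F * R 1 = R 1 * mp F) :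
    Slow (fun F => H21.cut (pj_one hR) (mp F)) (fun v => H21.cut (pj_one hR) (R v))
      (cutB (R 1) Bd) := by
  intro ε hε
  filter_upwards [h ε hε] with w hw F hF ζ hζ
  have h1 := hw F hF _ hζ
  rw [Submodule.coe_norm, Submodule.coe_sub, cut_ap _ (rep_comm hR w), cut_ap _ (hc hF),
    cut_ap _ (hc hF), cut_ap _ (rep_comm hR w)]
  exact h1

theorem mc_comm {P : K →L[ℂ] K} {F : Γ → ℂ} (hF : ∀ g, ‖F g‖ ≤ C)
    (hc : ∀ {F : Γ → ℝ} {C : ℝ}, (∀ g, |F g| ≤ C) → mp F * P = P * mp F) :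
    mc mp F * P = P * mc mp F := by
  rw [mc, add_mul, mul_add, smul_mul_assoc, mul_smul_comm,
    hc fun g => (Complex.abs_re_le_norm _).trans (hF g),
    hc fun g => (Complex.abs_im_le_norm _).trans (hF g)]

theorem LU1.cut (h : LU1 mp R G1 G2 l) (hR : Rep R)
    (hc : ∀ {F : Γ → ℝ} {C : ℝ}, (∀ g, |F g| ≤ C) → mp F * R 1 = R 1 * mp F) :
    LU1 (fun F => H21.cut (pj_one hR) (mp F)) (fun v => H21.cut (pj_one hR) (R v)) G1 G2 l := by
  intro F C hF hN v ξ η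
  refine (h F C hF hN v (ξ : K) (η : K)).congr fun w => ?_
  have hm := mc_comm (P := R 1) hF hc
  have e1 : H21.cut (pj_one hR) (R v) * mc (fun F => H21.cut (pj_one hR) (mp F)) F -
      mc (fun F => H21.cut (pj_one hR) (mp F)) F * H21.cut (pj_one hR) (R v) =
      H21.cut (pj_one hR) (R v * mc mp F - mc mp F * R v) := by
    rw [mc_cut, cut_sub, cut_mul _ (rep_comm hR v), cut_mul _ hm]
  rw [e1, cut_inner', cut_ap _ (rep_comm hR w), cut_ap _ (rep_comm hR w)]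

/-- **`Leg` on the range of `R 1`.** -/
theorem leg_cut (hR : Rep R)
    (hc : ∀ {F : Γ → ℝ} {C : ℝ}, (∀ g, |F g| ≤ C) → mp F * R 1 = R 1 * mp F)
    (lmul : ∀ γ γ', lam (γ * γ') = lam γ * lam γ') (lone : lam 1 = 1)
    (comm : ∀ g γ, R g * lam γ = lam γ * R g)
    (cov : ∀ γ (F : Γ → ℝ), (∀ g, |F g| ≤ 1) →
      lam γ * mp F * lam γ⁻¹ = mp (fun g => F (γ⁻¹ * g)))
    (WR : ∀ w ∈ W, w * R 1 = R 1 * w)
    (WP : ∀ w ∈ W, ∀ g, ∃ w' ∈ W, R g * w * R g⁻¹ = w' * R 1)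
    (Wm : ∀ w ∈ W, ∀ F : Γ → ℝ, (∀ g, |F g| ≤ 1) → w * mp F = mp F * w) :
    Leg (fun F => H21.cut (pj_one hR) (mp F)) (fun v => H21.cut (pj_one hR) (R v))
      (fun γ => H21.cut (pj_one hR) (lam γ)) ((fun a => H21.cut (pj_one hR) a) '' W) where
  one := rep_cut_one hR
  lmul := fun γ γ' => by rw [lmul, cut_mul _ (comm 1 γ).symm]
  lone := by rw [lone, cut_one]
  comm := fun g γ => by
    rw [← cut_mul _ (rep_comm hR g), ← cut_mul _ (comm 1 γ).symm, comm]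
  cov := fun γ F hF => by
    have h1 : lam γ * mp F * R 1 = R 1 * (lam γ * mp F) := by
      rw [mul_assoc, hc hF, ← mul_assoc, ← mul_assoc, comm]
    rw [← cut_mul _ (comm 1 γ).symm, ← cut_mul _ h1, cov γ F hF]
  WP := by
    rintro _ ⟨w, hw, rfl⟩ g
    obtain ⟨w', hw', e⟩ := WP w hw g
    refine ⟨w', hw', ?_⟩
    have h1 : R g * w * R 1 = R 1 * (R g * w) := by
      rw [mul_assoc, WR w hw, ← mul_assoc, ← mul_assoc, rep_comm hR]
    change H21.cut (pj_one hR) w' = _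
    rw [← cut_mul _ (rep_comm hR g), ← cut_mul _ h1, e, cut_mul _ (WR w' hw'), rep_cut_one hR,
      mul_one]
  Wm := by
    rintro _ ⟨w, hw, rfl⟩ F hF
    change H21.cut (pj_one hR) w * H21.cut (pj_one hR) (mp F) =
      H21.cut (pj_one hR) (mp F) * H21.cut (pj_one hR) w
    rw [← cut_mul _ (WR w hw), ← cut_mul _ (hc hF), Wm w hw F hF]

end data

end Vale.Agent.P092.H21
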