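import Vale.Agent.P092.H21.Cut
import Vale.Agent.P092.H43.LocUse
import Vale.Agent.P092.H107.Nws

/-!
P092 (helper21), all `t`: pull-back of the input of the engine (letters of H859/CLD) along an
isometry `J : K' → K` with range projection `P = R 1`.
-/

set_option linter.all false

open scoped InnerProductSpace Pointwise
open Filter Topology ContinuousLinearMap TopologicalSpace

namespace Vale.Agent.P092.H21

open Vale.Agent.P092.H553 (ind ind_nonneg ind_le_one abs_ind_le ind_pos ind_neg)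
open Vale.Agent.P092.H859.CL
open Vale.Agent.P092.H43 (Loc2)

section iso

variable {K K' : Type} [NormedAddCommGroup K] [InnerProductSpace ℂ K] [CompleteSpace K]
  [NormedAddCommGroup K'] [InnerProductSpace ℂ K'] [CompleteSpace K']

/-- `J` is an isometry with range projection `P`. -/
structure Ij (J : K' →L[ℂ] K) (P : K →L[ℂ] K) : Prop where
  left : ∀ ξ, adjoint J (J ξ) = ξ
  right : ∀ ξ, J (adjoint J ξ) = P ξ

/-- The compression by `J`. -/
noncomputable def cu (J : K' →L[ℂ] K) (T : K →L[ℂ] K) : K' →L[ℂ] K' := adjoint J ∘L T ∘L J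

variable {J : K' →L[ℂ] K} {P : K →L[ℂ] K}

theorem cu_ap' (T : K →L[ℂ] K) (ξ : K') : cu J T ξ = adjoint J (T (J ξ)) := rfl

theorem Ij.proj (h : Ij J P) : Pj P where
  idem := by
    ext ξ
    rw [mul_ap', ← h.right, ← h.right, h.left]
  adj := by
    have e : P = J ∘L adjoint J := by
      ext ξ
      rw [← h.right]; rfl
    rw [e, adjoint_comp, adjoint_adjoint]

theorem Ij.pJ (h : Ij J P) (ξ : K') : P (J ξ) = J ξ := by rw [← h.right, h.left]

theorem Ij.norm (h : Ij J P) (ξ : K') : ‖J ξ‖ = ‖ξ‖ := by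
  have h1 : ⟪J ξ, J ξ⟫_ℂ = ⟪ξ, ξ⟫_ℂ := by rw [← adjoint_inner_right, h.left]
  rw [inner_self_eq_norm_sq_to_K, inner_self_eq_norm_sq_to_K] at h1
  have h2 : ‖J ξ‖ ^ 2 = ‖ξ‖ ^ 2 := by exact_mod_cast h1
  exact (pow_left_inj₀ (norm_nonneg _) (norm_nonneg _) two_ne_zero).mp h2

theorem Ij.inner (h : Ij J P) (ξ η : K') : ⟪J ξ, J η⟫_ℂ = ⟪ξ, η⟫_ℂ := by
  rw [← adjoint_inner_right, h.left]

theorem Ij.adjP (h : Ij J P) (ξ : K) : adjoint J (P ξ) = adjoint J ξ := by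
  rw [← h.right, h.left]

theorem Ij.inj (h : Ij J P) {ξ η : K'} (e : J ξ = J η) : ξ = η := by
  rw [← h.left ξ, e, h.left]

theorem Ij.norm_adj_le (h : Ij J P) (ξ : K) : ‖adjoint J ξ‖ ≤ ‖ξ‖ := by
  rw [← h.norm, h.right]
  exact h.proj.norm_le ξ

theorem cu_ap (h : Ij J P) {T : K →L[ℂ] K} (hT : T * P = P * T) (ξ : K') :
    J (cu J T ξ) = T (J ξ) := by
  rw [cu_ap', h.right, ← mul_ap', ← hT, mul_ap', h.pJ]

theorem cu_add (S T : K →L[ℂ] K) : cu J (S + T) = cu J S + cu J T := by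
  ext ξ
  rw [add_apply, cu_ap', cu_ap', cu_ap', add_apply, map_add]

theorem cu_sub (S T : K →L[ℂ] K) : cu J (S - T) = cu J S - cu J T := by
  ext ξ
  rw [sub_apply, cu_ap', cu_ap', cu_ap', sub_apply, map_sub]

theorem cu_smul (c : ℂ) (T : K →L[ℂ] K) : cu J (c • T) = c • cu J T := by
  ext ξ
  rw [smul_apply, cu_ap', cu_ap', smul_apply, map_smul]

theorem cu_one (h : Ij J P) : cu J (1 : K →L[ℂ] K) = 1 := by
  ext ξ
  exact h.left ξ

theorem cu_P (h : Ij J P) : cu J P = 1 := by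
  ext ξ
  rw [cu_ap', h.pJ, h.left]; rfl

theorem cu_mul (h : Ij J P) {S : K →L[ℂ] K} (hS : S * P = P * S) (T : K →L[ℂ] K) :
    cu J (S * T) = cu J S * cu J T := by
  ext ξ
  rw [mul_ap', cu_ap', cu_ap', cu_ap', h.right, mul_ap', ← mul_ap' S P, hS, mul_ap', h.adjP]

theorem cu_inner (T : K →L[ℂ] K) (ξ η : K') : ⟪cu J T ξ, η⟫_ℂ = ⟪T (J ξ), J η⟫_ℂ := by
  rw [cu_ap', adjoint_inner_left]

theorem cu_inner' (T : K →L[ℂ] K) (ξ η : K') : ⟪η, cu J T ξ⟫_ℂ = ⟪J η, T (J ξ)⟫_ℂ := by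
  rw [cu_ap', adjoint_inner_right]

theorem cu_adj (T : K →L[ℂ] K) : adjoint (cu J T) = cu J (adjoint T) := by
  rw [cu, cu, adjoint_comp, adjoint_comp, adjoint_adjoint]
  rfl

theorem cu_norm (h : Ij J P) {T : K →L[ℂ] K} (hT : T * P = P * T) (ξ : K') :
    ‖cu J T ξ‖ = ‖T (J ξ)‖ := by
  rw [← h.norm, cu_ap h hT]

theorem cu_norm_le (h : Ij J P) (T : K →L[ℂ] K) (ξ : K') : ‖cu J T ξ‖ ≤ ‖T (J ξ)‖ := by
  rw [cu_ap']
  exact h.norm_adj_le _

/-- Convergence in `K'` can be tested in `K`. -/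
theorem Ij.tendsto (h : Ij J P) {α : Type} {l : Filter α} {f : α → K'} {x : K'} :
    Tendsto f l (𝓝 x) ↔ Tendsto (fun a => J (f a)) l (𝓝 (J x)) := by
  refine ⟨fun h1 => (J.continuous.tendsto x).comp h1, fun h1 => ?_⟩
  have h2 := ((adjoint J).continuous.tendsto (J x)).comp h1
  rw [h.left] at h2
  exact h2.congr fun a => h.left _

/-- An operator of `K` intertwined with an operator of `K'`. -/
theorem cu_eq (h : Ij J P) {T : K →L[ℂ] K} {T' : K' →L[ℂ] K'} (e : ∀ ξ, J (T' ξ) = T (J ξ)) :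
    cu J T = T' := by
  ext ξ
  rw [cu_ap', ← e, h.left]

end iso

section data

variable {Γ D K K' Y : Type} [Group Γ] [Group D] [NormedAddCommGroup K] [InnerProductSpace ℂ K]
  [CompleteSpace K] [NormedAddCommGroup K'] [InnerProductSpace ℂ K'] [CompleteSpace K']
  {mp : (Γ → ℝ) → (K →L[ℂ] K)} {R : D → (K →L[ℂ] K)} {Bd Bf : Set K}
  {ms : D → Set Γ → ℝ} {A : Subgroup D} {G1 G2 : Γ → ℝ} {bp : Γ → Y} {l l' : Filter D}
  {lam : Γ → (K →L[ℂ] K)} {W : Set (K →L[ℂ] K)} {C : ℝ}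
  {m : Set Γ → (K →L[ℂ] K)} {J : K' →L[ℂ] K} {P : K →L[ℂ] K}

/-- The bounded vectors of `K'`. -/
def cuB (J : K' →L[ℂ] K) (Bd : Set K) : Set K' := {ξ | J ξ ∈ Bd}

theorem Fn.cu (h : Fn mp) (hJ : Ij J P)
    (hc : ∀ {F : Γ → ℝ} {C : ℝ}, (∀ g, |F g| ≤ C) → mp F * P = P * mp F) :
    Fn (fun F => H21.cu J (mp F)) where
  one := by rw [h.one, cu_one hJ]
  add := fun hF hG => by rw [h.add hF hG, cu_add]
  smul := fun c {F} {C} hF => by rw [h.smul c hF, cu_smul]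
  mul := fun hF hG => by rw [h.mul hF hG, cu_mul hJ (hc hF)]
  adj := fun hF => by rw [cu_adj, h.adj hF]

theorem mc_cu (F : Γ → ℂ) : mc (fun F => H21.cu J (mp F)) F = H21.cu J (mc mp F) := by
  rw [mc, mc, cu_add, cu_smul]

theorem Rep.cu (h : Rep R) (hJ : Ij J (R 1)) : Rep (fun v => H21.cu J (R v)) where
  mul := fun v w => by rw [h.mul, cu_mul hJ (rep_comm h v)]
  adj := fun v => by rw [cu_adj, h.adj]

theorem rep_cu_one (hJ : Ij J (R 1)) : H21.cu J (R 1) = 1 := cu_P hJ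

theorem Prj.cu (h : Prj m) (hJ : Ij J P) (hc : ∀ S, m S * P = P * m S) :
    Prj (fun S => H21.cu J (m S)) where
  adj := fun S => by rw [cu_adj, h.adj]
  inter := fun S T => by rw [h.inter, cu_mul hJ (hc S)]
  compl := fun S => by rw [h.compl, cu_sub, cu_one hJ]

/-- The span of the bounded vectors is dense. -/
theorem cu_dense (hJ : Ij J (R 1)) (hd : Dense ((Submodule.span ℂ Bd : Submodule ℂ K) : Set K))
    (hmap : ∀ ξ ∈ Bd, R 1 ξ ∈ Bd) :
    Dense ((Submodule.span ℂ (cuB J Bd) : Submodule ℂ K') : Set K') := by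
  have key : ∀ y ∈ Submodule.span ℂ Bd, adjoint J y ∈ Submodule.span ℂ (cuB J Bd) := by
    intro y hy
    induction hy using Submodule.span_induction with
    | mem x hx =>
      refine Submodule.subset_span ?_
      change J (adjoint J x) ∈ Bd
      rw [hJ.right]
      exact hmap x hx
    | zero => rw [map_zero]; exact Submodule.zero_mem _
    | add x y _ _ hx hy => rw [map_add]; exact Submodule.add_mem _ hx hy
    | smul c x _ hx => rw [map_smul]; exact Submodule.smul_mem _ _ hx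
  intro ξ
  rw [Metric.mem_closure_iff]
  intro ε hε
  obtain ⟨y, hy, hyd⟩ := Metric.mem_closure_iff.1 (hd (J ξ)) ε hε
  refine ⟨_, key y hy, ?_⟩
  rw [dist_eq_norm] at hyd ⊢
  have e : ξ - adjoint J y = adjoint J (J ξ - y) := by rw [map_sub, hJ.left]
  rw [e]
  exact (hJ.norm_adj_le _).trans_lt hyd

/-- **`Sys` pulled back.** -/
theorem Sys.cu (h : Sys m R Bd ms A G1 G2) (hJ : Ij J (R 1)) (hc : ∀ S, m S * R 1 = R 1 * m S) :
    Sys (fun S => H21.cu J (m S)) (fun v => H21.cu J (R v)) (cuB J Bd) ms A G1 G2 where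
  prj := Prj.cu h.prj hJ hc
  rep := Rep.cu h.rep hJ
  dense := cu_dense hJ h.dense (h.map 1)
  norm := fun ξ hξ => by
    rw [← hJ.norm]
    exact h.norm _ hξ
  map := fun v ξ hξ => by
    change J (H21.cu J (R v) ξ) ∈ Bd
    rw [cu_ap hJ (rep_comm h.rep v)]
    exact h.map v _ hξ
  sep := fun u η hη ζ hζ F G P T h1 h2 => by
    have h3 := h.sep u _ hη _ hζ F G P T h1 h2
    have e : ⟪H21.cu J (m G) ζ, H21.cu J (R u) (H21.cu J (m F) η)⟫_ℂ =
        ⟪m G (J ζ), R u (m F (J η))⟫_ℂ := by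
      rw [← hJ.inner, cu_ap hJ (hc G), cu_ap hJ (rep_comm h.rep u), cu_ap hJ (hc F)]
    rw [e]
    exact h3
  nrm := h.nrm
  nrv := fun ξ hξ ε hε => by
    obtain ⟨r, hr⟩ := h.nrv _ hξ ε hε
    refine ⟨r, fun w hw => ?_⟩
    rw [cu_norm hJ (hc _), cu_ap hJ (rep_comm h.rep w)]
    exact hr w hw

/-- **`SysF` pulled back.** -/
theorem SysF.cu (h : SysF mp R Bd ms A G1 G2) (hJ : Ij J (R 1))
    (hc : ∀ {F : Γ → ℝ} {C : ℝ}, (∀ g, |F g| ≤ C) → mp F * R 1 = R 1 * mp F) :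
    SysF (fun F => H21.cu J (mp F)) (fun v => H21.cu J (R v)) (cuB J Bd) ms A G1 G2 where
  fn := Fn.cu h.fn hJ hc
  sys := Sys.cu h.sys hJ fun S => hc (abs_ind_le _)
  mpb := fun F hF ξ hξ => by
    change J (H21.cu J (mp F) ξ) ∈ Bd
    rw [cu_ap hJ (hc hF)]
    exact h.mpb F hF _ hξ

theorem Esc.cu (h : Esc m R Bd A l) (hJ : Ij J (R 1)) (hR : Rep R)
    (hc : ∀ S, m S * R 1 = R 1 * m S) :
    Esc (fun S => H21.cu J (m S)) (fun v => H21.cu J (R v)) (cuB J Bd) A l where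
  mem := h.mem
  esc := fun g ξ hξ => by
    refine (h.esc g _ hξ).congr fun w => ?_
    rw [cu_norm hJ (hc _), cu_ap hJ (rep_comm hR w)]

theorem P_cu (hJ : Ij J (R 1)) (hR : Rep R) (hc : ∀ S, m S * R 1 = R 1 * m S) (w : D) (S : Set Γ)
    (ξ : K') :
    J (H859.CL.P (fun S => H21.cu J (m S)) (fun v => H21.cu J (R v)) w S ξ) =
      H859.CL.P m R w S (J ξ) := by
  rw [P_ap, P_ap, cu_ap hJ (rep_comm hR _), cu_ap hJ (hc S), cu_ap hJ (rep_comm hR _)]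

theorem Full.cu (h : Full m R G1 G2 l) (hJ : Ij J (R 1)) (hR : Rep R)
    (hc : ∀ S, m S * R 1 = R 1 * m S) :
    Full (fun S => H21.cu J (m S)) (fun v => H21.cu J (R v)) G1 G2 l := by
  intro ξ
  rw [hJ.tendsto]
  refine ((h (J ξ)).congr fun w => (P_cu hJ hR hc w _ ξ).symm).mono_right (le_of_eq ?_)
  rw [cu_ap hJ (rep_comm hR 1)]

/-- Fullness of the pull-back implies fullness. -/
theorem full_of_cu (hJ : Ij J (R 1)) (hR : Rep R) (hc : ∀ S, m S * R 1 = R 1 * m S)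
    (h : Full (fun S => H21.cu J (m S)) (fun v => H21.cu J (R v)) G1 G2 l) :
    Full m R G1 G2 l := by
  intro ξ
  have h1 := hJ.tendsto.1 (h (adjoint J ξ))
  rw [cu_ap hJ (rep_comm hR 1), hJ.right] at h1
  refine (h1.congr fun w => ?_).mono_right (le_of_eq ?_)
  · rw [P_cu hJ hR hc, P_ap, P_ap, hJ.right, ← mul_ap' (R w) (R 1), hR.mul_one']
  · rw [← mul_ap', ← hR.mul, mul_one]

theorem Slow.cu [TopologicalSpace D] (h : Slow mp R Bd) (hJ : Ij J (R 1)) (hR : Rep R)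
    (hc : ∀ {F : Γ → ℝ} {C : ℝ}, (∀ g, |F g| ≤ C) → mp F * R 1 = R 1 * mp F) :
    Slow (fun F => H21.cu J (mp F)) (fun v => H21.cu J (R v)) (cuB J Bd) := by
  intro ε hε
  filter_upwards [h ε hε] with w hw F hF ζ hζ
  have h1 := hw F hF _ hζ
  rw [← hJ.norm, map_sub, cu_ap hJ (rep_comm hR w), cu_ap hJ (hc hF),
    cu_ap hJ (hc hF), cu_ap hJ (rep_comm hR w)]
  exact h1

theorem LU1.cu (h : LU1 mp R G1 G2 l) (hJ : Ij J (R 1)) (hR : Rep R)
    (hc : ∀ {F : Γ → ℝ} {C : ℝ}, (∀ g, |F g| ≤ C) → mp F * R 1 = R 1 * mp F) :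
    LU1 (fun F => H21.cu J (mp F)) (fun v => H21.cu J (R v)) G1 G2 l := by
  intro F C hF hN v ξ η
  refine (h F C hF hN v (J ξ) (J η)).congr fun w => ?_
  have hm := mc_comm (P := R 1) hF hc
  have e1 : H21.cu J (R v) * mc (fun F => H21.cu J (mp F)) F -
      mc (fun F => H21.cu J (mp F)) F * H21.cu J (R v) =
      H21.cu J (R v * mc mp F - mc mp F * R v) := by
    rw [mc_cu, cu_sub, cu_mul hJ (rep_comm hR v), cu_mul hJ hm]
  rw [e1, cu_inner', cu_ap hJ (rep_comm hR w), cu_ap hJ (rep_comm hR w)]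

/-- `H142.LU2`, unfolded. -/
theorem lu2_cu {v : D} {F : Γ → ℂ} (hF : ∀ g, ‖F g‖ ≤ C) (hJ : Ij J (R 1)) (hR : Rep R)
    (hc : ∀ {F : Γ → ℝ} {C : ℝ}, (∀ g, |F g| ≤ C) → mp F * R 1 = R 1 * mp F) (ξ η : K')
    (h : Tendsto (fun w => ⟪R v (R w (J η)), mc mp F (R v (R w (J ξ)))⟫_ℂ -
      ⟪R w (J η), mc mp F (R w (J ξ))⟫_ℂ) l (𝓝 0)) :
    Tendsto (fun w => ⟪H21.cu J (R v) (H21.cu J (R w) η),
        mc (fun F => H21.cu J (mp F)) F (H21.cu J (R v) (H21.cu J (R w) ξ))⟫_ℂ -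
      ⟪H21.cu J (R w) η, mc (fun F => H21.cu J (mp F)) F (H21.cu J (R w) ξ)⟫_ℂ) l (𝓝 0) := by
  refine h.congr fun w => ?_
  rw [mc_cu, cu_inner', cu_inner', cu_ap hJ (rep_comm hR v), cu_ap hJ (rep_comm hR w),
    cu_ap hJ (rep_comm hR w), cu_ap hJ (rep_comm hR v), cu_ap hJ (rep_comm hR w)]

/-- **`Loc2` pulled back.** -/
theorem Loc2.cu (h : Loc2 mp R Bd Bf) (hJ : Ij J (R 1)) (hR : Rep R)
    (hc : ∀ {F : Γ → ℝ} {C : ℝ}, (∀ g, |F g| ≤ C) → mp F * R 1 = R 1 * mp F) :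
    Loc2 (fun F => H21.cu J (mp F)) (fun v => H21.cu J (R v)) (cuB J Bd) (cuB J Bf) where
  sub := fun ξ hξ => h.sub hξ
  dense := cu_dense hJ h.dense (h.map 1)
  map := fun v ζ hζ => by
    change J (H21.cu J (R v) ζ) ∈ Bf
    rw [cu_ap hJ (rep_comm hR v)]
    exact h.map v _ hζ
  loc := fun v ε hε => by
    obtain ⟨S, X, hX, hl⟩ := h.loc v ε hε
    refine ⟨S, fun u => H21.cu J (X u), fun u hu F hF => ?_, fun ζ hζ => ?_⟩
    · have h1 : mp (fun g => F (g * u)) * R 1 = R 1 * mp (fun g => F (g * u)) :=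
        hc (C := 1) fun g => hF _
      have e2 : H21.cu J (X u) * H21.cu J (mp fun g => F (g * u)) =
          H21.cu J (X u * mp fun g => F (g * u)) := by
        ext ξ
        rw [mul_ap', cu_ap', cu_ap hJ h1]
        rfl
      change H21.cu J (mp F) * H21.cu J (X u) = H21.cu J (X u) * H21.cu J (mp fun g => F (g * u))
      rw [e2, ← cu_mul hJ (hc hF), hX u hu F hF]
    · obtain ⟨h1, h2⟩ := hl (J ζ) hζ
      refine ⟨le_trans (le_of_eq ?_) ((hJ.norm_adj_le _).trans h1),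
        le_trans (le_of_eq ?_) ((hJ.norm_adj_le _).trans h2)⟩
      · rw [map_sub, map_sum]
        rfl
      · rw [map_sub, map_sum, cu_adj]
        congr 2
        refine Finset.sum_congr rfl fun u _ => ?_
        rw [cu_adj]
        rfl

/-- **`Leg` pulled back.** -/
theorem leg_cu {lam' : Γ → (K' →L[ℂ] K')} {R' : D → (K' →L[ℂ] K')} {W' : Set (K' →L[ℂ] K')}
    (hJ : Ij J (R 1)) (hR : Rep R)
    (hc : ∀ {F : Γ → ℝ} {C : ℝ}, (∀ g, |F g| ≤ C) → mp F * R 1 = R 1 * mp F)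
    (hR' : ∀ v, R' v = H21.cu J (R v))
    (hl : ∀ γ ξ, J (lam' γ ξ) = lam γ (J ξ))
    (lmul : ∀ γ γ', lam' (γ * γ') = lam' γ * lam' γ') (lone : lam' 1 = 1)
    (comm : ∀ g γ, R' g * lam' γ = lam' γ * R' g)
    (cov : ∀ γ (F : Γ → ℝ), (∀ g, |F g| ≤ 1) → lam γ * mp F = mp (fun g => F (γ⁻¹ * g)) * lam γ)
    (WP : ∀ w ∈ W', ∀ g, R' g * w * R' g⁻¹ ∈ W')
    (Wm : ∀ w ∈ W', ∃ w₀ : K →L[ℂ] K, (∀ ξ, J (w ξ) = w₀ (J ξ)) ∧
      ∀ F : Γ → ℝ, (∀ g, |F g| ≤ 1) → w₀ * mp F = mp F * w₀) :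
    Leg (fun F => H21.cu J (mp F)) R' lam' W' where
  one := by rw [hR', rep_cu_one hJ]
  lmul := lmul
  lone := lone
  comm := comm
  cov := fun γ F hF => by
    have h1 : lam' γ * H21.cu J (mp F) = H21.cu J (mp fun g => F (γ⁻¹ * g)) * lam' γ := by
      ext ξ
      apply hJ.inj
      have hF' : mp (fun g => F (γ⁻¹ * g)) * R 1 = R 1 * mp (fun g => F (γ⁻¹ * g)) :=
        hc (C := 1) fun g => hF _
      rw [mul_ap', mul_ap', hl, cu_ap hJ (hc hF), cu_ap hJ hF', hl, ← mul_ap', cov γ F hF]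
      rfl
    change lam' γ * H21.cu J (mp F) * lam' γ⁻¹ = H21.cu J (mp fun g => F (γ⁻¹ * g))
    rw [h1, mul_assoc, ← lmul, mul_inv_cancel, lone, mul_one]
  WP := WP
  Wm := fun w hw F hF => by
    obtain ⟨w₀, h1, h2⟩ := Wm w hw
    change w * H21.cu J (mp F) = H21.cu J (mp F) * w
    ext ξ
    apply hJ.inj
    rw [mul_ap', mul_ap', h1, cu_ap hJ (hc hF), cu_ap hJ (hc hF), h1, ← mul_ap', h2 F hF]
    rfl

theorem Sym.cu {Ω : K'} (h : Sym mp R (J Ω)) (hJ : Ij J (R 1)) (hR : Rep R)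
    (hc : ∀ {F : Γ → ℝ} {C : ℝ}, (∀ g, |F g| ≤ C) → mp F * R 1 = R 1 * mp F) :
    Sym (fun F => H21.cu J (mp F)) (fun v => H21.cu J (R v)) Ω := by
  intro u S
  have h1 := h u S
  have e : ∀ (S : Set Γ) (w : D), ‖st (fun F => H21.cu J (mp F)) S (H21.cu J (R w) Ω)‖ =
      ‖st mp S (R w (J Ω))‖ := fun S w => by
    change ‖H21.cu J (st mp S) (H21.cu J (R w) Ω)‖ = _
    have h2 : st mp S * R 1 = R 1 * st mp S := hc (abs_ind_le _)
    rw [cu_norm hJ h2, cu_ap hJ (rep_comm hR w)]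
  rw [e, e]
  exact h1

end data

end Vale.Agent.P092.H21
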