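import Vale.Agent.P092.H21.DichoF
import Vale.Agent.P092.H76.TransD
import Vale.Agent.P092.H859.CLN
import Vale.Agent.P092.H43.LocUse
import Vale.Agent.P092.H962.C.Amp

/-!
P092 (helper21), all `t`: the type dichotomy together with the engine, for a picture with a finite
family of vectors (`RC.PicF`).
-/

set_option linter.all false

open scoped InnerProductSpace Pointwise
open Filter Topology ContinuousLinearMap

namespace Vale.Agent.P092.H21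

open Vale.Agent.P092.H859.CL hiding cfc
open Vale.Agent.P092.H76.Pur
open Vale.Agent.P092.H76.Dicho
open Vale.Agent.P092.H43 (Loc2 lu1)
open Vale.Agent.P092.RC (PicF Moore)

section picf

variable {Γ D K ι : Type} [Group Γ] [Group D] [TopologicalSpace D] [NormedAddCommGroup K]
  [InnerProductSpace ℂ K] [CompleteSpace K] [Fintype ι] {π : D →* (K →L[ℂ] K)}
  {lam : Γ →* (K →L[ℂ] K)} {W : Set (K →L[ℂ] K)} {Ω : ι → K}

theorem erg_of_picF (hP : PicF π lam W Ω) {Q : Set D} (hQ : Moore Q) : Erg π lam W Q :=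
  fun T hW hlam hπ => hP.erg Q hQ T (fun w hw => hW w hw) hlam hπ

theorem leg_of_picF (hP : PicF π lam W Ω) {mp : (Γ → ℝ) → (K →L[ℂ] K)}
    (hcov : ∀ γ (F : Γ → ℝ), (∀ g, |F g| ≤ 1) → lam γ * mp F * lam γ⁻¹ = mp (fun g => F (γ⁻¹ * g)))
    (hWm : ∀ w ∈ W, ∀ F : Γ → ℝ, (∀ g, |F g| ≤ 1) → w * mp F = mp F * w) :
    Leg mp π lam W where
  one := map_one π
  lmul := map_mul lam
  lone := map_one lam
  comm := hP.comm
  cov := hcov
  WP := hP.WP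
  Wm := hWm

/-- There is no constant covariant family, for a picture with families. -/
theorem noC_of_picF {X : Type} [TopologicalSpace X] [CompactSpace X] (hP : PicF π lam W Ω)
    {act : Γ → X → X} (hNI : NIS act) : NoC act π lam W := by
  obtain ⟨n, Ω', h1, h2⟩ := hP.inv
  exact noC_of hNI h1 fun T hW hπ γ => h2 T (fun w hw => hW w hw) hπ γ

end picf

section eng

variable {Γ D K Y Y' κ : Type} [Group Γ] [Group D] [NormedAddCommGroup K] [InnerProductSpace ℂ K]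
  [CompleteSpace K] [Fintype κ] {mp : (Γ → ℝ) → (K →L[ℂ] K)} {Bd Bf : Set K}
  {ms : D → Set Γ → ℝ} {G1 G2 : Γ → ℝ} {bp : Γ → Y} {bp' : Γ → Y'}
  {W : Set (K →L[ℂ] K)} {Q Q' : Set D} {Ω : κ → K} [TopologicalSpace D]
  [TopologicalSpace Y] [CompactSpace Y] [TopologicalSpace Y'] [CompactSpace Y']
  {π : D →* (K →L[ℂ] K)} {lam : Γ →* (K →L[ℂ] K)}

/-- **The dichotomy and the engine, families.** `act`, `act'` are the actions of `Γ` on the target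
space and on its dual. -/
theorem eng_dichoF (act : MulAction Γ Y) (act' : MulAction Γ Y') {b : D}
    (h : SysF mp π Bd ms (Subgroup.zpowers b) G1 G2)
    (hG : @GeoF Γ Y _ _ act G1 G2 bp) (hG' : @GeoF Γ Y' _ _ act' G2 G1 bp')
    (hL : Leg mp π lam W) (hS : Slow mp π Bd) (hloc : Loc2 mp π Bd Bf)
    (he : Esc (st mp) π Bd (Subgroup.zpowers b) (map (fun n : ℕ => b ^ n) atTop))
    (he' : Esc (st mp) π Bd (Subgroup.zpowers b) (map (fun n : ℕ => b⁻¹ ^ n) atTop))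
    (hsy : SymF mp π Ω) {C : ℝ} (hC : ∀ g, |G1 g⁻¹ - G2 g| ≤ C ∧ |G2 g⁻¹ - G1 g| ≤ C)
    (hΩ : ∑ i, ‖Ω i‖ ^ 2 = 1) (hNC : NoC (fun (γ : Γ) (y : Y) => act.smul γ y) π lam W)
    (hQ : ∀ n ∈ Q, Tendsto (fun i : ℕ => b ^ i * n * (b ^ i)⁻¹) atTop (𝓝 1) ∨ Commute b n)
    (hQ' : ∀ n ∈ Q', Tendsto (fun i : ℕ => (b ^ i)⁻¹ * n * b ^ i) atTop (𝓝 1) ∨ Commute b n)
    (hcl : Subgroup.closure (Q ∪ Q') = ⊤) (herg : Erg π lam W Q) (herg' : Erg π lam W Q') :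
    (∃ β : C(Y, ℂ) →⋆ₐ[ℂ] (K →L[ℂ] K),
      @EngOut Γ D K Y _ _ _ _ _ _ _ _ act.toSMul mp π lam W b G1 G2 bp β) ∨
    (∃ β : C(Y', ℂ) →⋆ₐ[ℂ] (K →L[ℂ] K),
      @EngOut Γ D K Y' _ _ _ _ _ _ _ _ act'.toSMul mp π lam W b G2 G1 bp' β) := by
  have hLU : LU mp π G1 G2 (map (fun n : ℕ => b ^ n) atTop) :=
    fun F C hF hN v ξ η => lu1 h hloc hG.fin he F C hF hN v ξ η
  have hLU' : LU mp π G1 G2 (map (fun n : ℕ => b⁻¹ ^ n) atTop) :=
    fun F C hF hN v ξ η => lu1 h hloc hG.fin he' F C hF hN v ξ η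
  have hd := @dicho_powF Γ D K Y κ _ _ _ _ _ _ mp Bd ms (Subgroup.zpowers b) G1 G2 bp W Q Q' Ω
    _ _ act π lam _ b h hG hL hS he he' hLU hLU' hsy C hC hΩ hNC hQ hQ' hcl herg herg'
  have hes : ∀ g, ∀ ξ ∈ Bd, Tendsto (fun n : ℕ => ‖st mp {g} (π (b ^ n) ξ)‖) atTop (𝓝 0) :=
    fun g ξ hξ => tendsto_map'_iff.1 (he.esc g ξ hξ)
  rcases hd with ⟨h1, -⟩ | ⟨h1, -⟩
  · left
    exact @engine Γ D K Y _ _ _ _ _ mp π Bd ms G1 G2 bp lam W _ _ _ act b h hL hG hS hes hLU h1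
  · right
    exact @engine Γ D K Y' _ _ _ _ _ mp π Bd ms G2 G1 bp' lam W _ _ _ act' b
      (H76.TransD.sysF_swap h) hL hG' hS hes (H76.TransD.LU_swap hLU) h1

end eng

end Vale.Agent.P092.H21
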