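import Vale.Agent.P092.H21.InstA
import Vale.Agent.P092.H357.Sep2
import Vale.Agent.P092.H776.NW2

/-!
P092 (helper21), block D0-INST, part 2: `SysF` on the picture `L²(X; ℓ²((Γ × Q) × ι))` in the letters
of helper357 (`BdL2`, `sep_set`) and helper776 (`nrv_abs`): the only input left is `nrm`.
-/

set_option linter.all false

open scoped InnerProductSpace ENNReal
open Filter Topology ContinuousLinearMap MeasureTheory

namespace Vale.Agent.P092.H21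

open Vale.Agent.P092.H160 Vale.Agent.P092.H553 Vale.Agent.P092.H432
open Vale.Agent.P092.H132 (Base TRep massX)
open Vale.Agent.P092.H538 (fst)
open Vale.Agent.P092.H790 (CData Ri baseL)
open Vale.Agent.P092.H859.CL (Prj Rep Sys Esc BB FF Fn st SysF BB_mono)

section gen

variable {D Λ Γ Γ₂ ι : Type} [Group D] [Group Λ] [Countable Λ] [Group Γ] [Countable Γ]
  [Group Γ₂] [Countable Γ₂] [Fintype ι] {t : ℝ}
  {R : Λ → (Ell2 ((Γ × Γ₂) × ι) →L[ℂ] Ell2 ((Γ × Γ₂) × ι))} (d : CData D Λ)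

theorem bdL2_eq : H357.BdL2 d.μ Γ Γ₂ ι = BdL2 d.μ Γ Γ₂ ι := by
  ext ξ
  refine ⟨fun h => ?_, fun h => ?_⟩
  · have h' : ∀ᵐ x ∂d.μ, H357.B2 (ξ x : Ell2 ((Γ × Γ₂) × ι)) := h
    change ∀ᵐ x ∂d.μ, Lb (ξ x : Ell2 ((Γ × Γ₂) × ι))
    filter_upwards [h'] with x hx
    exact H357.b2_iff.1 hx
  · have h' : ∀ᵐ x ∂d.μ, Lb (ξ x : Ell2 ((Γ × Γ₂) × ι)) := h
    change ∀ᵐ x ∂d.μ, H357.B2 (ξ x : Ell2 ((Γ × Γ₂) × ι))
    filter_upwards [h'] with x hx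
    exact H357.b2_iff.2 hx

/-- The sets of elements with two large gaps are quasi-invariant. -/
theorem bb_shift {G1 G2 : Γ → ℝ}
    (hgap : ∀ s u, ∃ C, ∀ x, |G1 (s * x * u) - G1 x| ≤ C ∧ |G2 (s * x * u) - G2 x| ≤ C)
    (γ : Γ) (r : ℝ) : ∃ r', ∀ g ∈ BB G1 G2 r', γ⁻¹ * g ∈ BB G1 G2 r := by
  obtain ⟨C, hC⟩ := hgap γ⁻¹ 1
  refine ⟨r + C, fun g hg => ?_⟩
  obtain ⟨h1, h2⟩ := hC g
  rw [mul_one] at h1 h2
  obtain ⟨a1, a2⟩ := abs_le.1 h1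
  obtain ⟨b1, b2⟩ := abs_le.1 h2
  obtain ⟨c1, c2⟩ := hg
  exact ⟨by linarith, by linarith⟩

/-- **`SysF` on the picture**, from `nrm` alone. -/
theorem sysF_nrm (hR : ARep t R) {A : Subgroup D} {G1 G2 : Γ → ℝ}
    (hgap : ∀ s u, ∃ C, ∀ x, |G1 (s * x * u) - G1 x| ≤ C ∧ |G2 (s * x * u) - G2 x| ≤ C)
    (nrm : ∀ ε : ℝ, 0 < ε → ∃ r, ∀ u ∈ A,
      massX (fst (baseL d.μ (Γ × Γ₂) ι)) (Ri d R) u (ind fun g => g ∈ BB G1 G2 r) ≤ ε) :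
    SysF (fst (baseL d.μ (Γ × Γ₂) ι)).mp (Ri d R) (H357.BdL2 d.μ Γ Γ₂ ι)
      (fun u P => massX (fst (baseL d.μ (Γ × Γ₂) ι)) (Ri d R) u (ind fun g => g ∈ P)) A G1 G2 := by
  rw [bdL2_eq]
  refine sysF_of d hR (fun u η hη ζ hζ F G P T h1 h2 => ?_) nrm (fun ξ hξ ε hε => ?_)
  · rw [← bdL2_eq] at hη hζ
    exact H357.sep_set d hR u hη hζ F G P T h1 h2
  · rw [← bdL2_eq] at hξ
    exact H776.NW.nrv_abs d hR (S := BB G1 G2) (fun r r' h => BB_mono h)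
      (bb_shift hgap) (A := (A : Set D)) nrm hξ hε

end gen

end Vale.Agent.P092.H21
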