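import Vale.Agent.P092.H21.SrcT
import Vale.Agent.P092.H76.HalfD
import Vale.Agent.P092.H978.LimC

/-!
P092 (helper21), Team C, all `t`: the engine on the picture `L²(G/Γ; ℋ)` of a triple with an honest
family, `G = SL_3(k)`, `k` nonarchimedean: for `q` the inclusion or its contragredient the wall
limits exist and give a boundary homomorphism; the fields `emb` and `lim` of `RC.HalfT`.
-/

set_option linter.all false

open scoped InnerProductSpace ENNReal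
open Filter Topology ContinuousLinearMap MeasureTheory TopologicalSpace

namespace Vale.Agent.P092.H21

open Vale.Agent.P092.SR Vale.Agent.P092.H160
open Vale.Agent.P092.H432 (lx ep ARep)
open Vale.Agent.P092.H132 (massX)
open Vale.Agent.P092.H538 (fst)
open Vale.Agent.P092.H790 (CData Ri baseL lxt)
open Vale.Agent.P092.H859.CL hiding cfc
open Vale.Agent.P092.RC (GG YY LL y0 Emb Moore PicF ct)
open Vale.Agent.P092.H76.Pur (NIS Inv Erg)
open Vale.Agent.P092.H76.Dicho (Ctr Ctr' moore_ctr moore_ctr' closure_ctr)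
open Vale.Agent.P092.H541 (ctr_inv ctr'_inv)
open Vale.Agent.P092.H575 (g1 g2 bp tg)
open Vale.Agent.P092.SD (G3 bw nm)
open Vale.Agent.P092.H978.LimC (ci lim_rc app_eng dec_bw)

section teamC

variable {k : Type} [NontriviallyNormedField k] [ProperSpace k] [IsUltrametricDist k]
  [LocallyCompactSpace (GG k 2)] [SecondCountableTopology (GG k 2)] [MeasurableSpace (GG k 2)]
  [BorelSpace (GG k 2)] {Γ : Subgroup (GG k 2)} [DiscreteTopology Γ] [Countable Γ]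
  [MeasurableSpace (GG k 2 ⧸ Γ)] [BorelSpace (GG k 2 ⧸ Γ)] {ν : Measure (GG k 2 ⧸ Γ)}
  [IsProbabilityMeasure ν] (hν : ∀ g : GG k 2, ν.map (fun x => g • x) = ν)
  {ℋ ι ι' κ : Type} [Fintype ι] [Fintype ι'] [Fintype κ] [NormedAddCommGroup ℋ]
  [InnerProductSpace ℂ ℋ] [CompleteSpace ℋ] {V R₁ R₂ : Γ →* (ℋ →L[ℂ] ℋ)} {ξ : ι → ℋ}
  {ξ' : ι' → ℋ} (hT : Tri V R₁ R₂ ξ)
  (hΓ : ∀ g : Γ, g ≠ 1 → Set.Infinite {y : Γ | ∃ h, y = h * g * h⁻¹}) (hT' : Tri R₁ V R₂ ξ')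
  (hh : Hon R₁ R₂ ξ)

include hΓ hT'

/-- the near-wall mass -/
theorem nrm_CT {w : kˣ} (hw : ‖(w : k)‖ < 1) {q : Γ →* GG k 2} (hq : Emb q) {ε : ℝ}
    (hε : 0 < ε) : ∃ r : ℝ, ∀ u ∈ Subgroup.zpowers ((bw w : G3 k)⁻¹),
      massX (fst (baseL (H85.cdat ν hν).μ (Γ × Γ) ι)) (Ri (H85.cdat ν hν) (RT hT)) u
        (H553.ind fun g => g ∈ BB (fun γ => g1 (q γ).1) (fun γ => g2 (q γ).1) r) ≤ ε := by
  have hw' : 1 < ‖((w⁻¹ : kˣ) : k)‖ := by
    rw [Units.val_inv_eq_inv_val, norm_inv]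
    exact one_lt_inv_iff₀.2 ⟨norm_pos_iff.2 w.ne_zero, hw⟩
  have h := H541.nrm_gs_zpowers (b := (bw w : G3 k)⁻¹) Γ ν hν (arepT hT hΓ hT') (covFamT hT hT')
    (ET_lx hT hT') (H776.NW.chWInv 2 hw' (Units.ne_zero _))
    (H776.NW.chW 2 hw' (Units.ne_zero _)) (by norm_num) le_rfl (fun N => by
      rw [H776.NW.bw_eq_tor]
      exact H776.NW.chWInv_b 2 hw' _ (by norm_num) N) (fun N => by
      rw [inv_inv, H776.NW.bw_eq_tor]
      exact H776.NW.chW_b 2 hw' _ (by norm_num) N) (H541.gsys_ultra q)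
      (H541.fin_ultra (H76.HalfD.fin_nm hq)) hε
  have e0 : (fun γ => g1 (q γ).1) = fun γ => H933.gap 0 (q γ).1 :=
    funext fun γ => H575.g1_eq_gap (by norm_num) (q γ).1
  have e1 : (fun γ => g2 (q γ).1) = fun γ => H933.gap 1 (q γ).1 :=
    funext fun γ => H575.g2_eq_gap (q γ).1
  rw [e0, e1]
  exact h

include hh

/-- `SysF` on the picture. -/
theorem sysF_CT {w : kˣ} (hw : ‖(w : k)‖ < 1) {q : Γ →* GG k 2} (hq : Emb q) :
    SysF (mT (H85.cdat ν hν) hT) (fun g => H34.Ind.pi (H85.cdat ν hν) (V := V) hT.adjV g)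
      (BdT (H85.cdat ν hν) hT) (msT (H85.cdat ν hν) hT) (Subgroup.zpowers ((bw w : G3 k)⁻¹))
      (fun γ => g1 (q γ).1) (fun γ => g2 (q γ).1) := by
  refine sysF_T (H85.cdat ν hν) hT hΓ hT' hh (fun s u => ?_)
    fun ε hε => nrm_CT hν hT hΓ hT' hw hq hε
  obtain ⟨c, hc⟩ := (H541.gsys_ultra q).quasi s u
  refine ⟨c, fun x => ⟨?_, ?_⟩⟩
  · have h := hc 0 x
    rw [H575.g1_eq_gap (by norm_num), H575.g1_eq_gap (by norm_num)]
    exact h
  · have h := hc 1 x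
    rw [H575.g2_eq_gap, H575.g2_eq_gap]
    exact h

/-- **[A-DIS], all `t`.** The engine on the picture: for one of the two types of the target the wall
limits exist. -/
theorem dis_CT (hL : H515.St.IsLattice Γ) {Ω : κ → Lp ℋ 2 (H85.cdat ν hν).μ}
    (hP : PicF (H34.Ind.pi (H85.cdat ν hν) (V := V) hT.adjV) (H34.Ind.lam (H85.cdat ν hν) R₁)
      (WT (H85.cdat ν hν) R₂) Ω) {w : kˣ} (hw : ‖(w : k)‖ < 1) :
    ∃ q : Γ →* GG k 2, (q = Γ.subtype ∨ q = ct.comp Γ.subtype) ∧ Emb q ∧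
      ∃ β : C(YY k 2, ℂ) →⋆ₐ[ℂ] (Lp ℋ 2 (H85.cdat ν hν).μ →L[ℂ] Lp ℋ 2 (H85.cdat ν hν).μ),
        @EngOut Γ (GG k 2) (Lp ℋ 2 (H85.cdat ν hν).μ) (YY k 2) _ _ _ _ _ _ _ _
          (MulAction.compHom (YY k 2) q).toSMul (mT (H85.cdat ν hν) hT)
          (fun g => H34.Ind.pi (H85.cdat ν hν) (V := V) hT.adjV g)
          (fun γ => H34.Ind.lam (H85.cdat ν hν) R₁ γ) (WT (H85.cdat ν hν) R₂)
          ((bw w : G3 k)⁻¹) (fun γ => g1 (q γ).1)
          (fun γ => g2 (q γ).1) (fun γ => bp (by omega) (tg q γ)) β := by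
  have hq : Emb Γ.subtype := H945.emb_sub hL
  have hs := sysF_CT hν hT hΓ hT' hh hw hq
  have hlt := leg_T (H85.cdat ν hν) hT hh hΓ hT'
  have hNI : NIS (fun (γ : Γ) (y : YY k 2) => (MulAction.compHom (YY k 2) Γ.subtype).smul γ y) :=
    H76.Pur.nis_P (show (0 : Fin 3) ≠ 1 by decide) Γ.subtype hq.lat.covol
  have hmo : Moore (Ctr ((bw w : G3 k)⁻¹)) := by rw [ctr_inv]; exact moore_ctr' hw
  have hmo' : Moore (Ctr' ((bw w : G3 k)⁻¹)) := by rw [ctr'_inv]; exact moore_ctr hw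
  have hcl : Subgroup.closure ((Ctr ((bw w : G3 k)⁻¹) ∪ {g | Commute ((bw w : G3 k)⁻¹) g}) ∪
      (Ctr' ((bw w : G3 k)⁻¹) ∪ {g | Commute ((bw w : G3 k)⁻¹) g})) = ⊤ := by
    rw [eq_top_iff, ← closure_ctr hw, ctr_inv, ctr'_inv]
    refine Subgroup.closure_mono ?_
    rintro g ((hg | hg) | hg)
    · exact Or.inr (Or.inl hg)
    · exact Or.inl (Or.inl hg)
    · exact Or.inl (Or.inr (Commute.inv_left_iff.2 hg))
  have hb := H541.tendsto_bw_inv hw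
  have h1 := eng_dichoF (MulAction.compHom (YY k 2) Γ.subtype)
    (MulAction.compHom (YY k 2) (ct.comp Γ.subtype)) hs
    (H575.geoF_rc le_rfl hq) (H575.geoF_rc_ct hq)
    (leg_of_picF hP hlt.cov hlt.Wm) (slow_T (H85.cdat ν hν) hT hΓ hT' hh (H43.ccont_cdat ν hν))
    (loc2_T (H85.cdat ν hν) hT hΓ hT' hh) (esc_pow_T hν hT hΓ hT' hh hb)
    (esc_pow_inv_T hν hT hΓ hT' hh hb)
    (symF_T (H85.cdat ν hν) hT hh hΓ hT' (nc ξ)) (C := 0) (fun γ => ?_) (sum_nc hT _)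
    (noC_of_picF hP hNI) (Q := Ctr ((bw w : G3 k)⁻¹) ∪
      {g | Commute ((bw w : G3 k)⁻¹) g}) (Q' := Ctr' ((bw w : G3 k)⁻¹) ∪
      {g | Commute ((bw w : G3 k)⁻¹) g}) (fun n hn => hn) (fun n hn => hn) hcl
    (erg_of_picF hP (H76.Dicho.Moore.mono hmo Set.subset_union_left))
    (erg_of_picF hP (H76.Dicho.Moore.mono hmo' Set.subset_union_left))
  · rcases h1 with ⟨β, hβ⟩ | ⟨β, hβ⟩
    · exact ⟨Γ.subtype, Or.inl rfl, hq, β, hβ⟩
    · refine ⟨ct.comp Γ.subtype, Or.inr rfl, H945.emb_ct_sub hL, β, ?_⟩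
      have e1 : (fun γ : Γ => g1 ((ct.comp Γ.subtype : Γ →* GG k 2) γ).1) =
          fun γ => g2 (Γ.subtype γ).1 := funext fun γ => H575.g1_ct (Γ.subtype γ)
      have e2 : (fun γ : Γ => g2 ((ct.comp Γ.subtype : Γ →* GG k 2) γ).1) =
          fun γ => g1 (Γ.subtype γ).1 := funext fun γ => H575.g2_ct (Γ.subtype γ)
      rw [e1, e2]
      exact hβ
  · rw [map_inv]
    have e1 : g1 ((Γ.subtype γ)⁻¹).1 = g2 (Γ.subtype γ).1 := H575.g1_inv' _
    have e2 : g2 ((Γ.subtype γ)⁻¹).1 = g1 (Γ.subtype γ).1 := H575.g2_inv' _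
    rw [e1, e2, sub_self, sub_self, abs_zero]
    exact ⟨le_rfl, le_rfl⟩

end teamC

end Vale.Agent.P092.H21
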