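import Vale.Agent.P092.H21.HalfCT
import Vale.Agent.P092.H448.TF4
import Vale.Agent.P092.H448.TF6
import Vale.Agent.P092.H448.TF7
import Vale.Agent.P092.H76.CommT
import Vale.Agent.P092.H242.HatE
import Vale.Agent.P092.RC.HalfT
import Vale.Agent.P092.H962.C.PicT
import Vale.Agent.P092.H458.T.Hon

/-!
P092 (helper21), Team C, all `t`: assembly of the output of the analysis for one leg.
-/

set_option linter.all false

open scoped InnerProductSpace ENNReal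
open Filter Topology ContinuousLinearMap MeasureTheory TopologicalSpace

namespace Vale.Agent.P092.H21.HalfTT

open Vale.Agent.P092.SR Vale.Agent.P092.H160 Vale.Agent.P092.H333.Amp Vale.Agent.P092.H962
open Vale.Agent.P092.H859.CL hiding cfc
open Vale.Agent.P092.RC hiding AF
open Vale.Agent.P092.H103
open Vale.Agent.P092.H575 (g1 g2 bp tg)
open Vale.Agent.P092.SD (G3 bw nm)
open Vale.Agent.P092.H978.LimC (ci lim_rc app_eng dec_bw)
open Vale.Agent.P092.H264.GrpC (bb)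
open Vale.Agent.P092.H21

section main

variable {k : Type} [NontriviallyNormedField k] [ProperSpace k] [IsUltrametricDist k]
  [LocallyCompactSpace (GG k 2)] [SecondCountableTopology (GG k 2)] [MeasurableSpace (GG k 2)]
  [BorelSpace (GG k 2)] {Γ : Subgroup (GG k 2)} [DiscreteTopology Γ] [Countable Γ]
  [MeasurableSpace (GG k 2 ⧸ Γ)] [BorelSpace (GG k 2 ⧸ Γ)] {ν : Measure (GG k 2 ⧸ Γ)}
  [IsProbabilityMeasure ν] (hν : ∀ g : GG k 2, ν.map (fun x => g • x) = ν)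
  {Λ I : Type} [Group Λ] [Fintype I] {α : Γ → (Ell2 (I × Λ) →L[ℂ] Ell2 (I × Λ))} (hα : H103.AF α)
  {ι ι' : Type} [Fintype ι] [Fintype ι'] {ξ : ι → HH (PT α α α)} {ξ' : ι' → HH (PT α α α)}
  (hT : Tri (V3 hα hα hα) (A3R hα hα hα) (B3R hα hα hα) ξ)
  (hΓ : ∀ g : Γ, g ≠ 1 → Set.Infinite {y : Γ | ∃ h, y = h * g * h⁻¹})
  (hT' : Tri (A3R hα hα hα) (V3 hα hα hα) (B3R hα hα hα) ξ')
  (hh : Hon (A3R hα hα hα) (B3R hα hα hα) ξ)

theorem bb_eq {w : k} (hw : w ≠ 0) : ((bw (Units.mk0 w hw) : G3 k)⁻¹ : GG k 2) = bb 2 hw :=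
  H242C.inv_bw (Units.mk0 w hw) hw rfl

/-! ### The other leg -/

section cjl

variable {G Δ K K' : Type} [Group G] [Group Δ] [NormedAddCommGroup K] [InnerProductSpace ℂ K]
  [CompleteSpace K] [NormedAddCommGroup K'] [InnerProductSpace ℂ K'] [CompleteSpace K']
  {u : K ≃ₗᵢ[ℂ] K'}

theorem ms_cj {lam : Δ →* (K →L[ℂ] K)} {lam' : Δ →* (K' →L[ℂ] K')} {m : Set Δ → (K →L[ℂ] K)}
    (h : H242.Hat.MS lam m) (hl : ∀ γ, cj u (lam γ) = lam' γ) :
    H242.Hat.MS lam' (fun S => cj u (m S)) where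
  adj S := by rw [adjoint_cj, h.adj]
  inter S T := by rw [h.inter, map_mul]
  compl S := by rw [h.compl, map_sub, map_one]
  lam γ S := by rw [← hl, ← hl, ← map_mul, ← map_mul, h.lam]

theorem pt_cj {π : G →* (K →L[ℂ] K)} {π' : G →* (K' →L[ℂ] K')} {m : Set Δ → (K →L[ℂ] K)}
    (hp : ∀ g, cj u (π g) = π' g) (v : ℕ → G) {S : Set Δ} {E : K →L[ℂ] K}
    (h : ∀ ζ, Tendsto (fun t : ℕ => H242.Hat.Pt m (fun g => π g) (v t) S ζ) atTop (𝓝 (E ζ)))
    (ζ : K') : Tendsto (fun t : ℕ => H242.Hat.Pt (fun S => cj u (m S)) (fun g => π' g) (v t) S ζ)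
      atTop (𝓝 (cj u E ζ)) := by
  obtain ⟨η, rfl⟩ := u.surjective ζ
  rw [cj_ap]
  have h1 := (u.continuous.tendsto _).comp (h η)
  refine h1.congr fun t => ?_
  have e : H242.Hat.Pt (fun S => cj u (m S)) (fun g => π' g) (v t) S =
      cj u (H242.Hat.Pt m (fun g => π g) (v t) S) := by
    change π' (v t)⁻¹ * cj u (m S) * π' (v t) = cj u (π (v t)⁻¹ * m S * π (v t))
    rw [map_mul, map_mul, hp, hp]
  rw [e, cj_ap]
  rfl

end cjl

include hT hΓ hT' hh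

/-- The normality of the multiplication operators, the vectors of the honest family. -/
theorem msrF_T : H448.TF.MsrF (lamT hν (A3R hα hα hα))
    (XG hν (HH (PT α α α)) ∪ Set.range (lamT hν (B3R hα hα hα))) (OmG hν ξ)
    (st (mT (H85.cdat ν hν) hT)) where
  cm S w hw := cm_T (H85.cdat ν hν) hT hh hΓ hT' S w hw
  om i := om_T (H85.cdat ν hν) hT hh _ i
  sig S η := sig_T (H85.cdat ν hν) hT hh S η

/-- The output of the engine on the picture. -/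
def Out (b : GG k 2) (q : Γ →* GG k 2)
    (β : C(YY k 2, ℂ) →⋆ₐ[ℂ] (KG hν (HH (PT α α α)) →L[ℂ] KG hν (HH (PT α α α)))) : Prop :=
  @EngOut Γ (GG k 2) (KG hν (HH (PT α α α))) (YY k 2) _ _ _ _ _ _ _ _
    (MulAction.compHom (YY k 2) q).toSMul (mT (H85.cdat ν hν) hT) (fun g => piT hν hα g)
    (fun γ => lamT hν (A3R hα hα hα) γ)
    (XG hν (HH (PT α α α)) ∪ Set.range (lamT hν (B3R hα hα hα))) b (fun γ => g1 (q γ).1)
    (fun γ => g2 (q γ).1) (fun γ => bp (by omega) (tg q γ)) β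

/-- the cone of a set of base points -/
def Bs (q : Γ →* GG k 2) (C : Clopens (YY k 2)) : Set Γ :=
  cn (fun γ => g1 (q γ).1) (fun γ => g2 (q γ).1) (fun γ => bp (by omega) (tg q γ))
    (C : Set (YY k 2))

variable {w : k} (hw0 : w ≠ 0) (hw1 : ‖w‖ < 1) {q : Γ →* GG k 2}
  {β : C(YY k 2, ℂ) →⋆ₐ[ℂ] (KG hν (HH (PT α α α)) →L[ℂ] KG hν (HH (PT α α α)))}

theorem exists_out (hL : H515.St.IsLattice Γ) {κ : Type} [Fintype κ]
    {Ω : κ → KG hν (HH (PT α α α))}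
    (hp : PicF (piT hν hα) (lamT hν (A3R hα hα hα))
      (XG hν (HH (PT α α α)) ∪ Set.range (lamT hν (B3R hα hα hα))) Ω)
    (hw0 : w ≠ 0) (hw1 : ‖w‖ < 1) :
    ∃ (q : Γ →* GG k 2)
      (β : C(YY k 2, ℂ) →⋆ₐ[ℂ] (KG hν (HH (PT α α α)) →L[ℂ] KG hν (HH (PT α α α)))),
      Emb q ∧ Out hν hα hT (bb 2 hw0) q β := by
  obtain ⟨q, -, hq, β, hβ⟩ := dis_CT hν hT hΓ hT' hh hL hp (w := Units.mk0 w hw0) hw1
  refine ⟨q, β, hq, ?_⟩
  rw [← bb_eq, Out]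
  exact hβ

omit hΓ hT' hh in
include hw1 in
theorem lim_out (hβ : Out hν hα hT (bb 2 hw0) q β) : Lim (piT hν hα) (lamT hν (A3R hα hα hα))
      (XG hν (HH (PT α α α)) ∪ Set.range (lamT hν (B3R hα hα hα))) q y0 fun C => β (ci C) := by
  letI sa : SMul Γ (YY k 2) := (MulAction.compHom (YY k 2) q).toSMul
  rw [Out, ← bb_eq] at hβ
  exact lim_rc hβ (fun γ y => rfl) (dec_bw (w := Units.mk0 w hw0) hw1)

omit hΓ hT' hh in
theorem isLim_out {b : GG k 2} (hβ : Out hν hα hT b q β) :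
    IsLim (mT (H85.cdat ν hν) hT) (fun g => piT hν hα g) (fun γ => g1 (q γ).1)
      (fun γ => g2 (q γ).1) (fun γ => bp (by omega) (tg q γ)) (pw b) β := by
  letI sa : SMul Γ (YY k 2) := (MulAction.compHom (YY k 2) q).toSMul
  rw [Out] at hβ
  exact hβ.lim

include hw1 in
theorem sys_out (hq : Emb q) : SysF (mT (H85.cdat ν hν) hT) (fun g => piT hν hα g)
    (BdT (H85.cdat ν hν) hT) (msT (H85.cdat ν hν) hT) (Subgroup.zpowers (bb 2 hw0))
    (fun γ => g1 (q γ).1) (fun γ => g2 (q γ).1) := by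
  rw [← bb_eq]
  exact sysF_CT hν hT hΓ hT' hh (w := Units.mk0 w hw0) hw1 hq

include hw1 in
theorem esc_out : Esc (st (mT (H85.cdat ν hν) hT)) (fun g => piT hν hα g)
    (BdT (H85.cdat ν hν) hT) (Subgroup.zpowers (bb 2 hw0)) (pw (bb 2 hw0)) := by
  rw [← bb_eq]
  exact esc_pow_T hν hT hΓ hT' hh (H541.tendsto_bw_inv (w := Units.mk0 w hw0) hw1)

include hw1 in
theorem hc_out (hq : Emb q) (hβ : Out hν hα hT (bb 2 hw0) q β) (S : Set Γ)
    (C : Clopens (YY k 2)) (x y : KG hν (HH (PT α α α))) :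
    Tendsto (fun t : ℕ => ⟪st (mT (H85.cdat ν hν) hT) S (piT hν hα (bb 2 hw0 ^ t) x),
        cj (flT hν hα) (st (mT (H85.cdat ν hν) hT) (Bs q C)) (piT hν hα (bb 2 hw0 ^ t) y)⟫_ℂ -
      ⟪cj (flT hν hα) (st (mT (H85.cdat ν hν) hT) (Bs q C)) (piT hν hα (bb 2 hw0 ^ t) x),
        st (mT (H85.cdat ν hν) hT) S (piT hν hα (bb 2 hw0 ^ t) y)⟫_ℂ) atTop (𝓝 0) := by
  have hG := H575.geoF_rc (k := k) (m := 2) le_rfl hq
  have hfin : ∀ r, (FF (fun γ : Γ => g1 (q γ).1) (fun γ => g2 (q γ).1) r).Finite := by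
    letI := MulAction.compHom (YY k 2) q
    exact hG.fin
  have hN : ∀ (C : Clopens (YY k 2)) (u : Γ), Neg (fun γ : Γ => g1 (q γ).1)
      (fun γ => g2 (q γ).1) fun g => H859.CL.cfc (fun γ : Γ => g1 (q γ).1)
        (fun γ => g2 (q γ).1) (fun γ => bp (by omega) (tg q γ)) (ci C) (g * u) -
      H859.CL.cfc (fun γ : Γ => g1 (q γ).1)
        (fun γ => g2 (q γ).1) (fun γ => bp (by omega) (tg q γ)) (ci C) g := by
    letI := MulAction.compHom (YY k 2) q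
    exact fun C u => neg_right hG u (ci C)
  exact H76.CommT.hc_KG hν hα hT hΓ hT' hh (sys_out hν hα hT hΓ hT' hh hw0 hw1 hq) hfin hN
    (esc_out hν hα hT hΓ hT' hh hw0 hw1) (isLim_out hν hα hT hβ) S C x y

omit hΓ hT' in
theorem lim1_out (hβ : Out hν hα hT (bb 2 hw0) q β) (C : Clopens (YY k 2))
    (ζ : KG hν (HH (PT α α α))) :
    Tendsto (fun t : ℕ => H242.Hat.Pt (st (mT (H85.cdat ν hν) hT)) (fun g => piT hν hα g)
      (bb 2 hw0 ^ t) (Bs q C) ζ) atTop (𝓝 (β (ci C) ζ)) := by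
  letI sa : SMul Γ (YY k 2) := (MulAction.compHom (YY k 2) q).toSMul
  exact app_eng hβ (fn_T (H85.cdat ν hν) hT hh) C ζ

omit hΓ hT' in
theorem lim2_out (hβ : Out hν hα hT (bb 2 hw0) q β) (C : Clopens (YY k 2))
    (ζ : KG hν (HH (PT α α α))) :
    Tendsto (fun t : ℕ => H242.Hat.Pt (fun S => cj (flT hν hα) (st (mT (H85.cdat ν hν) hT) S))
      (fun g => piT hν hα g) (bb 2 hw0 ^ t) (Bs q C) ζ) atTop
      (𝓝 (flpT hν hα (fun C => β (ci C)) C ζ)) :=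
  pt_cj (cj_piT hν hα) (fun t => bb 2 hw0 ^ t) (lim1_out hν hα hT hh hw0 hβ C) ζ

theorem ms_out : H242.Hat.MS (lamT hν (A3R hα hα hα)) (st (mT (H85.cdat ν hν) hT)) :=
  H448.TF.ms_fn (fn_T (H85.cdat ν hν) hT hh) (leg_T (H85.cdat ν hν) hT hh hΓ hT').cov

theorem ms2_out : H242.Hat.MS (lamT hν (B3R hα hα hα))
    (fun S => cj (flT hν hα) (st (mT (H85.cdat ν hν) hT) S)) :=
  ms_cj (ms_out hν hα hT hΓ hT' hh) (cj_lamA hν hα)

include hw1 in
theorem comm_out (hp : Pic2F (piT hν hα) (lamT hν (A3R hα hα hα)) (lamT hν (B3R hα hα hα))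
      (XG hν (HH (PT α α α))) (OmG hν ξ)) (hq : Emb q) (hβ : Out hν hα hT (bb 2 hw0) q β)
    (C C' : Clopens (YY k 2)) : β (ci C) * flpT hν hα (fun C => β (ci C)) C' =
      flpT hν hα (fun C => β (ci C)) C' * β (ci C) :=
  H448.TF.lim_comm₂ (H448.TF.picF_of hp.leg₁ (ms_out hν hα hT hΓ hT' hh))
    (H448.TF.picF_of hp.leg₂ (ms2_out hν hα hT hΓ hT' hh)) (lim1_out hν hα hT hh hw0 hβ C)
    (lim2_out hν hα hT hh hw0 hβ C') (hc_out hν hα hT hΓ hT' hh hw0 hw1 hq hβ _ C')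

omit hΓ hT' hh hT in
/-- the boundary map of the other leg -/
theorem limf_out {E : Clopens (YY k 2) → (KG hν (HH (PT α α α)) →L[ℂ] KG hν (HH (PT α α α)))}
    (hE : Lim (piT hν hα) (lamT hν (A3R hα hα hα))
      (XG hν (HH (PT α α α)) ∪ Set.range (lamT hν (B3R hα hα hα))) q y0 E) :
    Lim (piT hν hα) (lamT hν (B3R hα hα hα))
      (XG hν (HH (PT α α α)) ∪ Set.range (lamT hν (A3R hα hα hα))) q y0 (flpT hν hα E) :=
  lim_cj (fun g => (cj_piT hν hα g).symm) (fun γ => (cj_lamA hν hα γ).symm) (by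
    rw [Set.image_union, cj_XG hν hα, cj_rangeB hν hα]) hE

include hw1 in
/-- **`hat`** for the honest family. -/
theorem hat_out (hp : Pic2F (piT hν hα) (lamT hν (A3R hα hα hα)) (lamT hν (B3R hα hα hα))
      (XG hν (HH (PT α α α))) (OmG hν ξ)) (hq : Emb q) (hβ : Out hν hα hT (bb 2 hw0) q β)
    (hun : ∀ s : k, s ≠ 0 → ∃ j : ℤ, ‖s‖ = ‖w‖ ^ j) :
    ∃ U a, HatF (piT hν hα) (lamT hν (A3R hα hα hα))
        (XG hν (HH (PT α α α)) ∪ Set.range (lamT hν (B3R hα hα hα)) ∪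
          Set.range (flpT hν hα fun C => β (ci C))) (OmG hν ξ) q cc y0 (fun C => β (ci C))
          U a := by
  letI sa : SMul Γ (YY k 2) := (MulAction.compHom (YY k 2) q).toSMul
  have hE := lim_out hν hα hT hw0 hw1 hβ
  have hE2 := limf_out hν hα hE
  have hS := sys_out hν hα hT hΓ hT' hh hw0 hw1 hq
  refine H448.TF.hatF_eng (A := Subgroup.zpowers (bb 2 hw0)) le_rfl hq hp.leg₁ hS.fn
    (leg_T (H85.cdat ν hν) hT hh hΓ hT').cov
    (msrF_T hν hα hT hΓ hT' hh) hw0 hw1 hun hS.sys.dense hS.sys.map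
    (slow_T (H85.cdat ν hν) hT hΓ hT' hh (H43.ccont_cdat ν hν))
    (esc_out hν hα hT hΓ hT' hh hw0 hw1) hβ hE
    (H448.TF.ext_F hp hE hE2 (comm_out hν hα hT hΓ hT' hh hw0 hw1 hp hq hβ)) fun 𝒰 hU => ?_
  exact H448.TF.comm_msF hp.leg₁ hp.leg₂ (ms_out hν hα hT hΓ hT' hh)
    (ms2_out hν hα hT hΓ hT' hh)
    (fun S w hw => cm_T (H85.cdat ν hν) hT hh hΓ hT' S w hw) hU
    (fun C => hE2.cpv.sa C) (lim2_out hν hα hT hh hw0 hβ)
    (hc_out hν hα hT hΓ hT' hh hw0 hw1 hq hβ)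

end main

/-- **[C-HALF-T]** the output of the analysis for one leg, all `t`, lattices of `SL_3(k)`. -/
theorem halfStmtT : HalfStmtT 2 := by
  intro k _ _ _ _ _ _ _ _ Γ _ _ _ _ ν _ hν hL hi Λ _ _ hΛ I _ α hα
  obtain ⟨w, hw0, hw1, hun⟩ := H264.GrpC.exists_unif (k := k)
  obtain ⟨n, ξ, hT, hh⟩ := H458.Hon.hon hα hα hΛ
  obtain ⟨m, m', ξ', hT'⟩ := exists_tri' hα hα hα hΛ
  have hp := picStmtT 2 one_le_two k (Γ := Γ) hν hL hi hΛ hα ξ hT
  obtain ⟨q, β, hq, hβ⟩ := exists_out hν hα hT hi hT' hh hL hp.leg₁ hw0 hw1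
  have hE := lim_out hν hα hT hw0 hw1 hβ
  refine ⟨q, fun C => β (ci C), ⟨hq, hE, comm_out hν hα hT hi hT' hh hw0 hw1 hp hq hβ,
    fun {ι} _ ζ hζ => ?_⟩⟩
  obtain ⟨U, a, ha⟩ := hat_out hν hα hT hi hT' hh hw0 hw1 hp hq hβ hun
  obtain ⟨B, b, hB⟩ := H421.HsT.exists_basisHH (P := PT α α α)
  exact ⟨U, a, H448.TF.hatF_fam hν b hζ hT hp.leg₁.WP Set.subset_union_left hE.cm ha⟩

end Vale.Agent.P092.H21.HalfTT
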