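import Vale.Agent.P092.H21.RowT
import Vale.Agent.P092.H21.CutJ
import Vale.Agent.P092.H21.InstB
import Vale.Agent.P092.H43.Slow
import Vale.Agent.P092.H43.Loc2
import Vale.Agent.P092.H34.Ind

/-!
P092 (helper21), all `t`: the picture `L²(X; ℋ)` of a triple `V, R₁, R₂` with a Parseval family,
the isometry to the row model `L²(X; ℓ²((Γ × Γ) × ι))` and, for an honest family, the
multiplication operators of leg 1 and the analytic system.
-/

set_option linter.all false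

open scoped InnerProductSpace ENNReal
open Filter Topology ContinuousLinearMap MeasureTheory

namespace Vale.Agent.P092.H21

open Vale.Agent.P092.H160 Vale.Agent.P092.H432 Vale.Agent.P092.SR
open Vale.Agent.P092.H553 hiding ind
open Vale.Agent.P092.H132 (Base TRep massX)
open Vale.Agent.P092.H538 (fst)
open Vale.Agent.P092.H790 (CData Ri baseL lxt ri_ae ri_one ri_comp comp_mul comp_one)
open Vale.Agent.P092.H859.CL
open Vale.Agent.P092.H43 (Loc2 BfL CCont)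

/-! ### Constant fields of operators between different spaces -/

section gen

variable {X : Type*} [MeasurableSpace X] {μ : Measure X} {E F : Type} [NormedAddCommGroup E]
  [InnerProductSpace ℂ E] [CompleteSpace E] [NormedAddCommGroup F] [InnerProductSpace ℂ F]
  [CompleteSpace F]

theorem adjoint_compL (A : E →L[ℂ] F) :
    adjoint (A.compLpL 2 μ : Lp E 2 μ →L[ℂ] Lp F 2 μ) = (adjoint A).compLpL 2 μ := by
  symm
  rw [ContinuousLinearMap.eq_adjoint_iff]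
  intro x y
  rw [L2.inner_def, L2.inner_def]
  refine integral_congr_ae ?_
  filter_upwards [(adjoint A).coeFn_compLpL (p := 2) (μ := μ) x,
    A.coeFn_compLpL (p := 2) (μ := μ) y] with a h1 h2
  rw [h1, h2, adjoint_inner_left]

/-- intertwining relations pass to the constant fields -/
theorem compL_inter {A : E →L[ℂ] F} {S : E →L[ℂ] E} {T : F →L[ℂ] F}
    (h : ∀ v, A (S v) = T (A v)) (ξ : Lp E 2 μ) :
    A.compLpL 2 μ (S.compLpL 2 μ ξ) = T.compLpL 2 μ (A.compLpL 2 μ ξ) := by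
  refine Lp.ext ?_
  filter_upwards [A.coeFn_compLpL (p := 2) (μ := μ) (S.compLpL 2 μ ξ),
    S.coeFn_compLpL (p := 2) (μ := μ) ξ, A.coeFn_compLpL (p := 2) (μ := μ) ξ,
    T.coeFn_compLpL (p := 2) (μ := μ) (A.compLpL 2 μ ξ)] with x h1 h2 h3 h4
  rw [h1, h2, h4, h3, h]

theorem compL_ind {A : E →L[ℂ] F} {S : Set X} (hS : MeasurableSet S) (ξ : Lp E 2 μ) :
    A.compLpL 2 μ (H790.ind μ E S ξ) = H790.ind μ F S (A.compLpL 2 μ ξ) := by
  classical
  refine Lp.ext ?_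
  filter_upwards [A.coeFn_compLpL (p := 2) (μ := μ) (H790.ind μ E S ξ),
    H790.ind_ae hS ξ, A.coeFn_compLpL (p := 2) (μ := μ) ξ,
    H790.ind_ae hS (A.compLpL 2 μ ξ)] with x h1 h2 h3 h4
  rw [h1, h2, h4]
  by_cases hx : x ∈ S
  · rw [Set.indicator_of_mem hx, Set.indicator_of_mem hx, h3]
  · rw [Set.indicator_of_notMem hx, Set.indicator_of_notMem hx, map_zero]

theorem compL_const [IsFiniteMeasure μ] (A : E →L[ℂ] F) (v : E) :
    A.compLpL 2 μ (Lp.const 2 μ v) = Lp.const 2 μ (A v) := by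
  refine Lp.ext ?_
  filter_upwards [A.coeFn_compLpL (p := 2) (μ := μ) (Lp.const 2 μ v),
    Lp.coeFn_const (p := 2) (μ := μ) v, Lp.coeFn_const (p := 2) (μ := μ) (A v)] with x h1 h2 h3
  rw [h1, h2, h3]
  rfl

end gen

section tri

variable {Γ ι ℋ : Type} [Group Γ] [Fintype ι] [NormedAddCommGroup ℋ] [InnerProductSpace ℂ ℋ]
  [CompleteSpace ℋ] {V R₁ R₂ : Γ →* (ℋ →L[ℂ] ℋ)} {ξ : ι → ℋ}

/-- The family is honest: its Gram matrix lives on `{1} × Γ`. -/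
def Hon (R₁ R₂ : Γ →* (ℋ →L[ℂ] ℋ)) (ξ : ι → ℋ) : Prop :=
  ∀ γ : Γ, γ ≠ 1 → ∀ γ' i j, ⟪R₁ γ (R₂ γ' (ξ i)), ξ j⟫_ℂ = 0

variable (hT : Tri V R₁ R₂ ξ)

theorem RT_norm_le (v : Γ) : ‖RT hT v‖ ≤ 1 := by
  refine ContinuousLinearMap.opNorm_le_bound _ zero_le_one fun ζ => ?_
  rw [RT_ap, UT_norm, H962.V_norm hT.adjV, one_mul]
  refine (ContinuousLinearMap.le_opNorm _ _).trans ?_
  have h1 : ‖adjoint (UT hT)‖ ≤ 1 := by
    rw [LinearIsometryEquiv.norm_map]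
    exact ContinuousLinearMap.opNorm_le_bound _ zero_le_one fun η => by rw [UT_norm, one_mul]
  exact mul_le_of_le_one_left (norm_nonneg _) h1

/-- For an honest family, `R 1` commutes with the functions of the first coordinate. -/
theorem hon_comm (hh : Hon R₁ R₂ ξ) {F : Γ → ℝ} {C : ℝ} (hF : ∀ g, |F g| ≤ C) :
    mp ι (fun x : Γ × Γ => F x.1) * RT hT 1 = RT hT 1 * mp ι (fun x : Γ × Γ => F x.1) := by
  apply op_ext
  rintro ⟨⟨g, h⟩, i⟩
  change mp ι (fun x : Γ × Γ => F x.1) (RT hT 1 (dl ((g, h), i))) =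
    RT hT 1 (mp ι (fun x : Γ × Γ => F x.1) (dl ((g, h), i)))
  have e1 : (mp ι (fun x : Γ × Γ => F x.1) (dl ((g, h), i) : Ell2 ((Γ × Γ) × ι))) =
      (F g : ℂ) • dl ((g, h), i) := by
    apply ext_inner_dl
    intro x
    rw [mp, H553.mo_apply (F := fun x : (Γ × Γ) × ι => F x.1.1) (C := C) fun x => hF _]
    change (F x.1.1 : ℂ) * _ = (F g : ℂ) * _
    by_cases hx : x = ((g, h), i)
    · subst hx; rfl
    · rw [dl_ne hx, mul_zero, mul_zero]
  rw [e1, map_smul]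
  apply ext_inner_dl
  rintro ⟨⟨g', h'⟩, j⟩
  rw [mp, H553.mo_apply (F := fun x : (Γ × Γ) × ι => F x.1.1) (C := C) fun x => hF _]
  change (F g' : ℂ) * (RT hT 1 (dl ((g, h), i))) ((g', h'), j) =
    (F g : ℂ) * (RT hT 1 (dl ((g, h), i))) ((g', h'), j)
  by_cases hg : g = g'
  · rw [hg]
  · have e2 : (RT hT 1 (dl ((g, h), i))) ((g', h'), j) = 0 := by
      rw [RT_one_ap, UT_ap, adjUT_dl]
      change ⟪R₁ g' (R₂ h' (ξ j)), R₁ g (R₂ h (ξ i))⟫_ℂ = 0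
      have h1 : ⟪R₁ g' (R₂ h' (ξ j)), R₁ g (R₂ h (ξ i))⟫_ℂ =
          ⟪R₁ (g⁻¹ * g') (R₂ (h⁻¹ * h') (ξ j)), ξ i⟫_ℂ := by
        rw [← adjoint_inner_left, hT.adj₁, ← app_mul, app12 hT, ← adjoint_inner_left, hT.adj₂,
          ← app_mul, ← app12 hT]
      rw [h1]
      exact hh _ (fun h2 => hg (inv_mul_eq_one.mp h2)) _ _ _
    rw [e2, mul_zero, mul_zero]

end tri

/-! ### The picture -/

section pic

variable {D Γ ι ℋ : Type} [Group D] [Group Γ] [Countable Γ] [Fintype ι] [NormedAddCommGroup ℋ]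
  [InnerProductSpace ℂ ℋ] [CompleteSpace ℋ] {V R₁ R₂ : Γ →* (ℋ →L[ℂ] ℋ)} {ξ : ι → ℋ}
  (d : CData D Γ) (hT : Tri V R₁ R₂ ξ)

/-- The isometry from the picture to the row model. -/
noncomputable def JT : Lp ℋ 2 d.μ →L[ℂ] Lp (Ell2 ((Γ × Γ) × ι)) 2 d.μ := (UT hT).compLpL 2 d.μ

theorem JT_ae (η : Lp ℋ 2 d.μ) : ⇑(JT d hT η) =ᵐ[d.μ] fun x => UT hT (η x) :=
  (UT hT).coeFn_compLpL (p := 2) (μ := d.μ) η

theorem adjJT_ae (ζ : Lp (Ell2 ((Γ × Γ) × ι)) 2 d.μ) :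
    ⇑(adjoint (JT d hT) ζ) =ᵐ[d.μ] fun x => adjoint (UT hT) (ζ x) := by
  rw [JT, adjoint_compL]
  exact (adjoint (UT hT)).coeFn_compLpL (p := 2) (μ := d.μ) ζ

/-- `JT` is an isometry with range projection `R 1`. -/
theorem ijT : Ij (JT d hT) (Ri d (RT hT) 1) where
  left η := by
    refine Lp.ext ?_
    filter_upwards [adjJT_ae d hT (JT d hT η), JT_ae d hT η] with x h1 h2
    rw [h1, h2, UT_left]
  right ζ := by
    rw [ri_one d (RT_norm_le hT)]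
    refine Lp.ext ?_
    filter_upwards [JT_ae d hT (adjoint (JT d hT) ζ), adjJT_ae d hT ζ,
      (RT hT 1).coeFn_compLpL (p := 2) (μ := d.μ) ζ] with x h1 h2 h3
    rw [h1, h2, h3, RT_one_ap]

/-- `JT` intertwines the induced representations. -/
theorem JT_pi (g : D) (η : Lp ℋ 2 d.μ) :
    JT d hT (H34.Ind.pi d (V := V) hT.adjV g η) = Ri d (RT hT) g (JT d hT η) := by
  refine Lp.ext ?_
  have h0 := ri_ae d (R := fun v => V v) (H34.Ind.norm_le_of_adj hT.adjV) g η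
  filter_upwards [JT_ae d hT (H34.Ind.pi d (V := V) hT.adjV g η), h0,
    ri_ae d (RT_norm_le hT) g (JT d hT η), H790.ae_comp (d.mp g⁻¹) (JT_ae d hT η)]
    with x h1 h2 h3 h4
  have h5 : (H34.Ind.pi d (V := V) hT.adjV g η : Lp ℋ 2 d.μ) x =
      V (d.c g (d.act g⁻¹ x)) (η (d.act g⁻¹ x)) := h2
  rw [h1, h5, h3, h4, UT_V]

/-- The induced representation is the compression of the row representation. -/
theorem pi_eq_cu (g : D) :
    H34.Ind.pi d (V := V) hT.adjV g = cu (JT d hT) (Ri d (RT hT) g) :=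
  (cu_eq (ijT d hT) (JT_pi d hT g)).symm

theorem JT_lam₁ (γ : Γ) (η : Lp ℋ 2 d.μ) :
    JT d hT (H34.Ind.lam d R₁ γ η) = lxt d.μ (γ, (1 : Γ)) (JT d hT η) :=
  compL_inter (UT_R₁ hT γ) η

theorem JT_lam₂ (γ : Γ) (η : Lp ℋ 2 d.μ) :
    JT d hT (H34.Ind.lam d R₂ γ η) = lxt d.μ ((1 : Γ), γ) (JT d hT η) :=
  compL_inter (UT_R₂ hT γ) η

theorem JT_ind {S : Set d.X} (hS : MeasurableSet S) (η : Lp ℋ 2 d.μ) :
    JT d hT (H790.ind d.μ ℋ S η) = H790.ind d.μ _ S (JT d hT η) := compL_ind hS η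

theorem JT_const (v : ℋ) : JT d hT (Lp.const 2 d.μ v) = Lp.const 2 d.μ (UT hT v) :=
  compL_const _ v

/-- The functions of the first coordinate, on the row model. -/
theorem mp1_comm (hh : Hon R₁ R₂ ξ) {F : Γ → ℝ} {C : ℝ} (hF : ∀ g, |F g| ≤ C) :
    (fst (baseL d.μ (Γ × Γ) ι)).mp F * Ri d (RT hT) 1 =
      Ri d (RT hT) 1 * (fst (baseL d.μ (Γ × Γ) ι)).mp F := by
  rw [ri_one d (RT_norm_le hT)]
  change (mp ι (fun x : Γ × Γ => F x.1)).compLpL 2 d.μ * (RT hT 1).compLpL 2 d.μ =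
    (RT hT 1).compLpL 2 d.μ * (mp ι (fun x : Γ × Γ => F x.1)).compLpL 2 d.μ
  rw [← comp_mul, ← comp_mul, hon_comm hT hh hF]

/-- **The multiplication operators of leg 1 on the picture.** -/
noncomputable def mT (F : Γ → ℝ) : Lp ℋ 2 d.μ →L[ℂ] Lp ℋ 2 d.μ :=
  cu (JT d hT) ((fst (baseL d.μ (Γ × Γ) ι)).mp F)

theorem JT_mT (hh : Hon R₁ R₂ ξ) {F : Γ → ℝ} {C : ℝ} (hF : ∀ g, |F g| ≤ C) (η : Lp ℋ 2 d.μ) :
    JT d hT (mT d hT F η) = (fst (baseL d.μ (Γ × Γ) ι)).mp F (JT d hT η) :=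
  cu_ap (ijT d hT) (mp1_comm d hT hh hF) η

/-- The bounded vectors of the picture. -/
def BdT : Set (Lp ℋ 2 d.μ) := cuB (JT d hT) (H357.BdL2 d.μ Γ Γ ι)

/-- The vectors bounded in both legs. -/
def BfT : Set (Lp ℋ 2 d.μ) := cuB (JT d hT) (BfL d.μ (Γ × Γ) ι)

/-- The masses. -/
noncomputable def msT (u : D) (P : Set Γ) : ℝ :=
  massX (fst (baseL d.μ (Γ × Γ) ι)) (Ri d (RT hT)) u (H553.ind fun g => g ∈ P)

variable {ι' : Type} [Fintype ι'] {ξ' : ι' → ℋ}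
  (hΓ : ∀ g : Γ, g ≠ 1 → Set.Infinite {y : Γ | ∃ h, y = h * g * h⁻¹}) (hT' : Tri R₁ V R₂ ξ')
  (hh : Hon R₁ R₂ ξ)

include hΓ hT' in
theorem repT : Rep (Ri d (RT hT)) := rep_ri d (arepT hT hΓ hT')

include hΓ hT' hh

/-- **`SysF` on the picture, all `t`**, from `nrm`. -/
theorem sysF_T {A : Subgroup D} {G1 G2 : Γ → ℝ}
    (hgap : ∀ s u, ∃ C, ∀ x, |G1 (s * x * u) - G1 x| ≤ C ∧ |G2 (s * x * u) - G2 x| ≤ C)
    (nrm : ∀ ε : ℝ, 0 < ε → ∃ r, ∀ u ∈ A,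
      massX (fst (baseL d.μ (Γ × Γ) ι)) (Ri d (RT hT)) u
        (H553.ind fun g => g ∈ BB G1 G2 r) ≤ ε) :
    SysF (mT d hT) (fun g => H34.Ind.pi d (V := V) hT.adjV g) (BdT d hT) (msT d hT) A G1 G2 := by
  have h1 := SysF.cu (sysF_nrm d (arepT hT hΓ hT') hgap nrm) (ijT d hT)
    (fun {F} {C} hF => mp1_comm d hT hh hF)
  have e : (fun g => cu (JT d hT) (Ri d (RT hT) g)) =
      fun g => H34.Ind.pi d (V := V) hT.adjV g := funext fun g => (pi_eq_cu d hT g).symm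
  rw [e] at h1
  exact h1

/-- **`Slow` on the picture, all `t`.** -/
theorem slow_T [TopologicalSpace D] (hc : CCont d) :
    Slow (mT d hT) (fun g => H34.Ind.pi d (V := V) hT.adjV g) (BdT d hT) := by
  have h0 : Slow (fst (baseL d.μ (Γ × Γ) ι)).mp (Ri d (RT hT)) (H357.BdL2 d.μ Γ Γ ι) := by
    intro ε hε
    filter_upwards [H43.slow_fam d hc (RT_norm_le hT) hε] with h hh' F hF ζ hζ
    refine hh' (mp ι (fun x : Γ × Γ => F x.1)) ?_ (hon_comm hT hh hF) ζ ?_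
    · exact ContinuousLinearMap.opNorm_le_bound _ zero_le_one fun v =>
        norm_mp_le (ι := ι) (F := fun x : Γ × Γ => F x.1) (fun x => hF x.1) v
    · have hζ' : ∀ᵐ x ∂d.μ, H357.B2 (ζ x : Ell2 ((Γ × Γ) × ι)) := hζ
      filter_upwards [hζ'] with x hx
      exact hx.norm_le
  have h1 := Slow.cu h0 (ijT d hT) (repT d hT hΓ hT') (fun {F} {C} hF => mp1_comm d hT hh hF)
  have e : (fun g => cu (JT d hT) (Ri d (RT hT) g)) =
      fun g => H34.Ind.pi d (V := V) hT.adjV g := funext fun g => (pi_eq_cu d hT g).symm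
  rw [e] at h1
  exact h1

/-- **`Loc2` on the picture, all `t`.** -/
theorem loc2_T : Loc2 (mT d hT) (fun g => H34.Ind.pi d (V := V) hT.adjV g) (BdT d hT)
    (BfT d hT) := by
  have h0 : Loc2 (fun F => (fst (baseL d.μ (Γ × Γ) ι)).mp F) (Ri d (RT hT))
      (H357.BdL2 d.μ Γ Γ ι) (BfL d.μ (Γ × Γ) ι) := by
    refine H43.loc2 d (arepT hT hΓ hT') fun ζ hζ => ?_
    have hζ' : ∀ᵐ x ∂d.μ, H43.LB (ζ x : Ell2 ((Γ × Γ) × ι)) := hζ
    change ∀ᵐ x ∂d.μ, H357.B2 (ζ x : Ell2 ((Γ × Γ) × ι))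
    filter_upwards [hζ'] with x hx
    exact hx.b2
  have h1 := Loc2.cu h0 (ijT d hT) (repT d hT hΓ hT') (fun {F} {C} hF => mp1_comm d hT hh hF)
  have e : (fun g => cu (JT d hT) (Ri d (RT hT) g)) =
      fun g => H34.Ind.pi d (V := V) hT.adjV g := funext fun g => (pi_eq_cu d hT g).symm
  rw [e] at h1
  exact h1

/-- Transport of `Esc`. -/
theorem esc_T {A : Subgroup D} {l : Filter D}
    (h : Esc (st (fst (baseL d.μ (Γ × Γ) ι)).mp) (Ri d (RT hT)) (H357.BdL2 d.μ Γ Γ ι) A l) :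
    Esc (st (mT d hT)) (fun g => H34.Ind.pi d (V := V) hT.adjV g) (BdT d hT) A l := by
  have h1 := Esc.cu h (ijT d hT) (repT d hT hΓ hT')
    (fun S => mp1_comm d hT hh (H553.abs_ind_le _))
  have e : (fun g => cu (JT d hT) (Ri d (RT hT) g)) =
      fun g => H34.Ind.pi d (V := V) hT.adjV g := funext fun g => (pi_eq_cu d hT g).symm
  rw [e] at h1
  exact h1

end pic

end Vale.Agent.P092.H21
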