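import Vale.Agent.P092.H962.Tr0
import Vale.Agent.P092.H761.CovReg
import Vale.Agent.P092.H432.PiA

/-!
P092 (helper21), all `t`: the row model of a triple `V, R₁, R₂` with a finite Parseval family
(`SR.Tri`): the isometry `UT : ℋ → ℓ²((Γ × Γ) × ι)`, the representation `RT v = UT V(v) UT*`, which
is an `ARep`, and a covariant family of positive operators.
-/

set_option linter.all false

open scoped InnerProductSpace
open Filter Topology ContinuousLinearMap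

namespace Vale.Agent.P092.H21

open Vale.Agent.P092.H160 Vale.Agent.P092.H432 Vale.Agent.P092.SR
open Vale.Agent.P092.H761 (CovFam)
open Vale.Agent.P092.H553 (mo)

section tri

variable {Γ ι ℋ : Type} [Group Γ] [Fintype ι] [NormedAddCommGroup ℋ] [InnerProductSpace ℂ ℋ]
  [CompleteSpace ℋ] {V R₁ R₂ : Γ →* (ℋ →L[ℂ] ℋ)} {ξ : ι → ℋ}

/-- `((g, h), i) ↦ (i, (g, h))` -/
def eT (Γ ι : Type) : (Γ × Γ) × ι ≃ ι × Γ × Γ where
  toFun p := (p.2, p.1)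
  invFun p := (p.2, p.1)
  left_inv _ := rfl
  right_inv _ := rfl

theorem hasSum_T (hT : Tri V R₁ R₂ ξ) (η : ℋ) :
    HasSum (fun p : (Γ × Γ) × ι => ‖⟪R₁ p.1.1 (R₂ p.1.2 (ξ p.2)), η⟫_ℂ‖ ^ 2) (‖η‖ ^ 2) :=
  (eT Γ ι).hasSum_iff.mpr (hT.frame η)

/-- The analysis operator of the Parseval family. -/
noncomputable def UTi (hT : Tri V R₁ R₂ ξ) : ℋ →ₗᵢ[ℂ] Ell2 ((Γ × Γ) × ι) where
  toFun η := ⟨fun p => ⟪R₁ p.1.1 (R₂ p.1.2 (ξ p.2)), η⟫_ℂ,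
    memlp_of_summable (hasSum_T hT η).summable⟩
  map_add' x y := by
    ext p
    change ⟪_, x + y⟫_ℂ = ⟪_, x⟫_ℂ + ⟪_, y⟫_ℂ
    rw [inner_add_right]
  map_smul' c x := by
    ext p
    change ⟪_, c • x⟫_ℂ = c * ⟪_, x⟫_ℂ
    rw [inner_smul_right]
  norm_map' η := by
    refine (pow_left_inj₀ (norm_nonneg _) (norm_nonneg _) two_ne_zero).mp ?_
    change ‖(⟨fun p : (Γ × Γ) × ι => ⟪R₁ p.1.1 (R₂ p.1.2 (ξ p.2)), η⟫_ℂ,
      memlp_of_summable (hasSum_T hT η).summable⟩ : Ell2 ((Γ × Γ) × ι))‖ ^ 2 = _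
    rw [norm_sq]
    exact (hasSum_T hT η).tsum_eq

/-- The analysis operator, as a continuous linear map. -/
noncomputable def UT (hT : Tri V R₁ R₂ ξ) : ℋ →L[ℂ] Ell2 ((Γ × Γ) × ι) :=
  (UTi hT).toContinuousLinearMap

variable (hT : Tri V R₁ R₂ ξ)

theorem UT_ap (η : ℋ) (p : (Γ × Γ) × ι) : UT hT η p = ⟪R₁ p.1.1 (R₂ p.1.2 (ξ p.2)), η⟫_ℂ := rfl

theorem UT_norm (η : ℋ) : ‖UT hT η‖ = ‖η‖ := (UTi hT).norm_map η

theorem UT_inner (η η' : ℋ) : ⟪UT hT η, UT hT η'⟫_ℂ = ⟪η, η'⟫_ℂ := (UTi hT).inner_map_map η η'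

theorem UT_left (η : ℋ) : adjoint (UT hT) (UT hT η) = η := by
  refine ext_inner_left ℂ fun w => ?_
  rw [adjoint_inner_right, UT_inner]

theorem adjUT_dl (p : (Γ × Γ) × ι) : adjoint (UT hT) (dl p) = R₁ p.1.1 (R₂ p.1.2 (ξ p.2)) := by
  refine ext_inner_right ℂ fun w => ?_
  rw [adjoint_inner_left, inner_dl, UT_ap]

theorem adjUT_ep (i : ι) : adjoint (UT hT) (ep i) = ξ i := by
  rw [ep, adjUT_dl]
  change R₁ 1 (R₂ 1 (ξ i)) = ξ i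
  rw [map_one, map_one]
  rfl

include hT in
theorem app12 (g h : Γ) (v : ℋ) : R₁ g (R₂ h v) = R₂ h (R₁ g v) :=
  congrArg (fun A : ℋ →L[ℂ] ℋ => A v) (hT.comm₁₂ g h)

theorem app_mul (R : Γ →* (ℋ →L[ℂ] ℋ)) (g h : Γ) (v : ℋ) : R (g * h) v = R g (R h v) := by
  rw [map_mul]; rfl

/-- Leg 1 is left translation in the first coordinate. -/
theorem UT_R₁ (γ : Γ) (η : ℋ) : UT hT (R₁ γ η) = lx (γ, (1 : Γ)) (UT hT η) := by
  apply ext_inner_dl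
  rintro ⟨⟨g, h⟩, i⟩
  rw [lx_apply, UT_ap, UT_ap, ← adjoint_inner_left, hT.adj₁, ← app_mul]
  simp

/-- Leg 2 is left translation in the second coordinate. -/
theorem UT_R₂ (γ : Γ) (η : ℋ) : UT hT (R₂ γ η) = lx ((1 : Γ), γ) (UT hT η) := by
  apply ext_inner_dl
  rintro ⟨⟨g, h⟩, i⟩
  rw [lx_apply, UT_ap, UT_ap, ← adjoint_inner_left, hT.adj₂, ← app12 hT, ← app_mul]
  simp

theorem UT_lx (s : Γ × Γ) (η : ℋ) : UT hT (R₁ s.1 (R₂ s.2 η)) = lx s (UT hT η) := by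
  rw [UT_R₁, UT_R₂]
  have h1 : (lx (s.1, (1 : Γ)) : Ell2 ((Γ × Γ) × ι) →L[ℂ] _) * lx ((1 : Γ), s.2) = lx s := by
    rw [← lx_mul]
    congr 1
    ext <;> simp
  exact congrArg (fun A : Ell2 ((Γ × Γ) × ι) →L[ℂ] Ell2 ((Γ × Γ) × ι) => A (UT hT η)) h1

theorem adjUT_lx (s : Γ × Γ) (ζ : Ell2 ((Γ × Γ) × ι)) :
    adjoint (UT hT) (lx s ζ) = R₁ s.1 (R₂ s.2 (adjoint (UT hT) ζ)) := by
  refine ext_inner_right ℂ fun w => ?_
  have e1 : ⟪R₁ s.1 (R₂ s.2 (adjoint (UT hT) ζ)), w⟫_ℂ =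
      ⟪adjoint (UT hT) ζ, R₁ s⁻¹.1 (R₂ s⁻¹.2 w)⟫_ℂ := by
    rw [← adjoint_inner_right, hT.adj₁, ← adjoint_inner_right, hT.adj₂, ← app12 hT]
    rfl
  rw [e1, adjoint_inner_left, adjoint_inner_left, UT_lx, inner_lx_left]

/-- The row representation. -/
noncomputable def RT (v : Γ) : Ell2 ((Γ × Γ) × ι) →L[ℂ] Ell2 ((Γ × Γ) × ι) :=
  UT hT ∘L V v ∘L adjoint (UT hT)

theorem RT_ap (v : Γ) (ζ : Ell2 ((Γ × Γ) × ι)) :
    RT hT v ζ = UT hT (V v (adjoint (UT hT) ζ)) := rfl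

theorem RT_one_ap (ζ : Ell2 ((Γ × Γ) × ι)) : RT hT 1 ζ = UT hT (adjoint (UT hT) ζ) := by
  rw [RT_ap, map_one]; rfl

/-- `UT` intertwines `V` with `RT`. -/
theorem UT_V (v : Γ) (η : ℋ) : UT hT (V v η) = RT hT v (UT hT η) := by
  rw [RT_ap, UT_left]

/-- The dimension of the picture. -/
def dmT (ξ : ι → ℋ) : ℝ := ∑ i, ‖ξ i‖ ^ 2

/-- **The row representation is an `ARep`.** -/
theorem arepT {ι' : Type} [Fintype ι'] {ξ' : ι' → ℋ}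
    (hΓ : ∀ g : Γ, g ≠ 1 → Set.Infinite {y : Γ | ∃ h, y = h * g * h⁻¹})
    (hT' : Tri R₁ V R₂ ξ') : ARep (dmT ξ) (RT hT) where
  ra v := by
    intro s
    ext1 ζ
    change RT hT v (lx s ζ) = lx s (RT hT v ζ)
    have e1 : ∀ x, V v (R₁ s.1 x) = R₁ s.1 (V v x) := fun x =>
      congrArg (fun A : ℋ →L[ℂ] ℋ => A x) (hT.comm₁ v s.1)
    have e2 : ∀ x, V v (R₂ s.2 x) = R₂ s.2 (V v x) := fun x =>
      congrArg (fun A : ℋ →L[ℂ] ℋ => A x) (hT.comm₂ v s.2)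
    rw [RT_ap, RT_ap, adjUT_lx, e1, e2, UT_lx]
  mul v w := by
    ext1 ζ
    change RT hT (v * w) ζ = RT hT v (RT hT w ζ)
    rw [RT_ap, RT_ap, RT_ap, UT_left, ← app_mul]
  adj v := by
    rw [RT, RT, adjoint_comp, adjoint_comp, adjoint_adjoint, hT.adjV]
    rfl
  pos := by
    obtain ⟨k, hk⟩ := hT.ne
    exact Finset.sum_pos' (fun i _ => by positivity)
      ⟨k, Finset.mem_univ _, by have := norm_pos_iff.2 hk; positivity⟩
  tr_one := by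
    rw [dmT, Complex.ofReal_sum]
    refine Finset.sum_congr rfl fun i _ => ?_
    rw [RT_one_ap, ← adjoint_inner_left, adjUT_ep, inner_self_eq_norm_sq_to_K]
    norm_cast
  tr_zero v hv := by
    rw [← H962.tr0 hΓ hT hT' v hv]
    refine Finset.sum_congr rfl fun i _ => ?_
    rw [RT_ap, ← adjoint_inner_left, adjUT_ep]

/-! ### The covariant family -/

/-- Pull-back of a covariant family along an intertwining isometry. -/
theorem covFam_pull {Λ F K : Type} [Group Λ] [NormedAddCommGroup F] [InnerProductSpace ℂ F]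
    [CompleteSpace F] [NormedAddCommGroup K] [InnerProductSpace ℂ K] [CompleteSpace K]
    {R0 : Λ → (F →L[ℂ] F)} {P : Set Λ → (F →L[ℂ] F)} (h : CovFam R0 P) (Z : K →L[ℂ] F)
    (hZ : ∀ ξ, adjoint Z (Z ξ) = ξ) {R : Λ → (K →L[ℂ] K)} (h1 : R 1 = 1)
    (hR : ∀ v ξ, Z (R v ξ) = R0 v (Z ξ)) (hR' : ∀ v ξ, R v (adjoint Z ξ) = adjoint Z (R0 v ξ)) :
    CovFam R (fun A => adjoint Z ∘L P A ∘L Z) where
  nonneg := fun A => by
    have hs := (IsSelfAdjoint.of_nonneg (h.nonneg A))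
    refine H108.nonneg_of_inner ?_ fun ζ => ?_
    · rw [isSelfAdjoint_iff', adjoint_comp, adjoint_comp, adjoint_adjoint]
      rw [isSelfAdjoint_iff'] at hs
      rw [hs]
      rfl
    · change 0 ≤ (⟪ζ, adjoint Z (P A (Z ζ))⟫_ℂ).re
      rw [adjoint_inner_right]
      exact H108.inner_nonneg_of_nonneg (h.nonneg A) _
  add := fun A A' hd => by
    rw [h.add A A' hd]
    ext ξ
    simp
  univ := by
    ext ξ
    change adjoint Z (P Set.univ (Z ξ)) = R 1 ξ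
    rw [h.univ, ← hR, hZ]
  lim := fun A y => by
    change Tendsto (fun s : Finset Λ => adjoint Z (P (A ∩ (s : Set Λ)) (Z y))) atTop
      (𝓝 (adjoint Z (P A (Z y))))
    exact ((adjoint Z).continuous.tendsto _).comp (h.lim A (Z y))
  cov := fun v A => by
    refine ContinuousLinearMap.ext fun ξ => ?_
    rw [← h.cov v A]
    change R v (adjoint Z (P A (Z (R v⁻¹ ξ)))) = adjoint Z (R0 v (P A (R0 v⁻¹ (Z ξ))))
    rw [hR, hR']

/-- `((g, h), i) ↦ g⁻¹` -/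
def fT (Γ ι : Type) [Group Γ] (p : (Γ × Γ) × ι) : Γ := p.1.1⁻¹

/-- The covariant family on `ℋ`. -/
noncomputable def EH {ι' : Type} [Fintype ι'] {ξ' : ι' → ℋ} (hT' : Tri R₁ V R₂ ξ') (A : Set Γ) :
    ℋ →L[ℂ] ℋ := adjoint (UT hT') ∘L mo (H761.iA (fT Γ ι') A) ∘L UT hT'

theorem covFam_H {ι' : Type} [Fintype ι'] {ξ' : ι' → ℋ} (hT' : Tri R₁ V R₂ ξ') :
    CovFam (fun v => V v) (EH hT') := by
  have h0 : CovFam (fun v : Γ => (rei ((Equiv.mulLeft ((v, (1 : Γ)) : Γ × Γ)).prodCongr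
      (Equiv.refl ι')) : Ell2 ((Γ × Γ) × ι') →L[ℂ] Ell2 ((Γ × Γ) × ι')))
      (fun A => mo (H761.iA (fT Γ ι') A)) := by
    refine H761.covFam_rei (fT Γ ι')
      (fun v : Γ => (Equiv.mulLeft ((v, (1 : Γ)) : Γ × Γ)).prodCongr (Equiv.refl ι')) ?_ ?_ ?_
    · ext x <;> simp
    · intro v
      ext x <;> simp
    · rintro v ⟨⟨g, h⟩, i⟩
      change (v * g)⁻¹ = g⁻¹ * v⁻¹
      rw [mul_inv_rev]
  refine covFam_pull h0 (UT hT') (UT_left hT') (map_one V) (fun v ξ => UT_R₁ hT' v ξ)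
    fun v ζ => ?_
  have h1 := adjUT_lx hT' (v, (1 : Γ)) ζ
  rw [map_one] at h1
  exact h1.symm

theorem EH_R₂ {ι' : Type} [Fintype ι'] {ξ' : ι' → ℋ} (hT' : Tri R₁ V R₂ ξ') (A : Set Γ) (g : Γ) :
    EH hT' A * R₂ g = R₂ g * EH hT' A := by
  ext1 η
  change adjoint (UT hT') (mo (H761.iA (fT Γ ι') A) (UT hT' (R₂ g η))) =
    R₂ g (adjoint (UT hT') (mo (H761.iA (fT Γ ι') A) (UT hT' η)))
  have e1 : ∀ ζ : Ell2 ((Γ × Γ) × ι'), mo (H761.iA (fT Γ ι') A) (lx ((1 : Γ), g) ζ) =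
      lx ((1 : Γ), g) (mo (H761.iA (fT Γ ι') A) ζ) := fun ζ => by
    apply ext_inner_dl
    rintro ⟨⟨a, b⟩, i⟩
    rw [H761.iA_apply, lx_apply, lx_apply, H761.iA_apply]
    have e2 : H761.iA (fT Γ ι') A ((((1 : Γ), g)⁻¹ * (a, b)), i) =
        H761.iA (fT Γ ι') A ((a, b), i) := by
      have e7 : fT Γ ι' ((((1 : Γ), g)⁻¹ * (a, b)), i) = fT Γ ι' ((a, b), i) := by
        change ((1 : Γ)⁻¹ * a)⁻¹ = a⁻¹
        rw [inv_one, one_mul]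
      unfold H761.iA
      rw [e7]
    rw [e2]
  have e3 := adjUT_lx hT' ((1 : Γ), g) (mo (H761.iA (fT Γ ι') A) (UT hT' η))
  rw [map_one] at e3
  rw [UT_R₂, e1]
  exact e3

/-- The covariant family on the row model. -/
noncomputable def ET {ι' : Type} [Fintype ι'] {ξ' : ι' → ℋ} (hT' : Tri R₁ V R₂ ξ') (A : Set Γ) :
    Ell2 ((Γ × Γ) × ι) →L[ℂ] Ell2 ((Γ × Γ) × ι) := UT hT ∘L EH hT' A ∘L adjoint (UT hT)

theorem covFamT {ι' : Type} [Fintype ι'] {ξ' : ι' → ℋ} (hT' : Tri R₁ V R₂ ξ') :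
    CovFam (RT hT) (ET hT hT') :=
  H761.covFam_conj (covFam_H hT') (UT hT) (UT_left hT) fun v => rfl

theorem ET_lx {ι' : Type} [Fintype ι'] {ξ' : ι' → ℋ} (hT' : Tri R₁ V R₂ ξ') (A : Set Γ) (g : Γ) :
    ET hT hT' A * lx ((1 : Γ), g) = lx ((1 : Γ), g) * ET hT hT' A := by
  ext1 ζ
  change UT hT (EH hT' A (adjoint (UT hT) (lx ((1 : Γ), g) ζ))) =
    lx ((1 : Γ), g) (UT hT (EH hT' A (adjoint (UT hT) ζ)))
  have e3 := adjUT_lx hT ((1 : Γ), g) ζ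
  rw [map_one] at e3
  have e4 : adjoint (UT hT) (lx ((1 : Γ), g) ζ) = R₂ g (adjoint (UT hT) ζ) := e3
  have e5 : EH hT' A (R₂ g (adjoint (UT hT) ζ)) = R₂ g (EH hT' A (adjoint (UT hT) ζ)) :=
    congrArg (fun T : ℋ →L[ℂ] ℋ => T (adjoint (UT hT) ζ)) (EH_R₂ hT' A g)
  rw [e4, e5, UT_R₂]

end tri

end Vale.Agent.P092.H21
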