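import Vale.Agent.P092.H21.DisF
import Vale.Agent.P092.H21.RowM
import Vale.Agent.P092.H541.EscA
import Vale.Agent.P092.H534.NWK
import Vale.Agent.P092.H805.HalfK

/-!
P092 (helper21), all `t`: the source data of one leg of the picture `L²(E/Γ; ℋ)` of a triple with an
honest family, `E` a second countable locally compact group; Team D: the boundary calculi over any
local field.
-/

set_option linter.all false

open scoped InnerProductSpace ENNReal LinearAlgebra.Projectivization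
open Filter Topology ContinuousLinearMap MeasureTheory TopologicalSpace

namespace Vale.Agent.P092.H21

open Vale.Agent.P092.H160 Vale.Agent.P092.H432 Vale.Agent.P092.SR
open Vale.Agent.P092.H132 (massX)
open Vale.Agent.P092.H538 (fst)
open Vale.Agent.P092.H790 (CData Ri baseL lxt)
open Vale.Agent.P092.H859.CL hiding cfc
open Vale.Agent.P092.H43 (Loc2 BfL)
open Vale.Agent.P092.RC (PicF)

/-! ### General source -/

section gen

variable {E : Type} [Group E] [TopologicalSpace E] [IsTopologicalGroup E] [LocallyCompactSpace E]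
  [SecondCountableTopology E] [T2Space E] [MeasurableSpace E] [BorelSpace E]
  {Γ : Subgroup E} [DiscreteTopology Γ] [MeasurableSpace (E ⧸ Γ)] [BorelSpace (E ⧸ Γ)]
  {ν : Measure (E ⧸ Γ)} [IsProbabilityMeasure ν] [Countable Γ]
  (hν : ∀ g : E, ν.map (fun x => g • x) = ν)
  {ℋ ι ι' : Type} [Fintype ι] [Fintype ι'] [NormedAddCommGroup ℋ] [InnerProductSpace ℂ ℋ]
  [CompleteSpace ℋ] {V R₁ R₂ : Γ →* (ℋ →L[ℂ] ℋ)} {ξ : ι → ℋ} {ξ' : ι' → ℋ}
  (hT : Tri V R₁ R₂ ξ)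
  (hΓ : ∀ g : Γ, g ≠ 1 → Set.Infinite {y : Γ | ∃ h, y = h * g * h⁻¹}) (hT' : Tri R₁ V R₂ ξ')
  (hh : Hon R₁ R₂ ξ)

include hΓ hT' hh

/-- **`Esc`** along the powers of `b`. -/
theorem esc_pow_T {b : E} (hb : Tendsto (fun n : ℕ => b ^ n) atTop (cocompact E)) :
    Esc (st (mT (H85.cdat ν hν) hT)) (fun g => H34.Ind.pi (H85.cdat ν hν) (V := V) hT.adjV g)
      (BdT (H85.cdat ν hν) hT) (Subgroup.zpowers b) (map (fun n : ℕ => b ^ n) atTop) :=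
  esc_T (H85.cdat ν hν) hT hΓ hT' hh
    (H541.esc_pow Γ ν hν (arepT hT hΓ hT') (covFamT hT hT') (ET_lx hT hT') hb _)

/-- **`Esc`** along the powers of `b⁻¹`. -/
theorem esc_pow_inv_T {b : E} (hb : Tendsto (fun n : ℕ => b ^ n) atTop (cocompact E)) :
    Esc (st (mT (H85.cdat ν hν) hT)) (fun g => H34.Ind.pi (H85.cdat ν hν) (V := V) hT.adjV g)
      (BdT (H85.cdat ν hν) hT) (Subgroup.zpowers b) (map (fun n : ℕ => b⁻¹ ^ n) atTop) :=
  esc_T (H85.cdat ν hν) hT hΓ hT' hh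
    (H541.esc_pow_inv Γ ν hν (arepT hT hΓ hT') (covFamT hT hT') (ET_lx hT hT') hb _)

end gen

/-! ### Constant fields -/

section cf

variable {D Γ ι ℋ : Type} [Group D] [Group Γ] [Countable Γ] [Fintype ι] [NormedAddCommGroup ℋ]
  [InnerProductSpace ℂ ℋ] [CompleteSpace ℋ] {V R₁ R₂ : Γ →* (ℋ →L[ℂ] ℋ)} {ξ : ι → ℋ}
  (d : CData D Γ) (hT : Tri V R₁ R₂ ξ)

/-- The multiplication operators are constant fields. -/
theorem mT_comp (F : Γ → ℝ) : mT d hT F =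
    (adjoint (UT hT) ∘L (mp ι (fun x : Γ × Γ => F x.1) ∘L UT hT)).compLpL 2 d.μ := by
  ext1 η
  refine Lp.ext ?_
  filter_upwards [adjJT_ae d hT ((fst (baseL d.μ (Γ × Γ) ι)).mp F (JT d hT η)),
    (mp ι (fun x : Γ × Γ => F x.1)).coeFn_compLpL (p := 2) (μ := d.μ) (JT d hT η),
    JT_ae d hT η,
    (adjoint (UT hT) ∘L (mp ι (fun x : Γ × Γ => F x.1) ∘L UT hT)).coeFn_compLpL (p := 2)
      (μ := d.μ) η] with x h1 h2 h3 h4
  have h1' : (mT d hT F η) x = adjoint (UT hT)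
      (((fst (baseL d.μ (Γ × Γ) ι)).mp F (JT d hT η) : Lp (Ell2 ((Γ × Γ) × ι)) 2 d.μ) x) := h1
  have h2' : ((fst (baseL d.μ (Γ × Γ) ι)).mp F (JT d hT η) : Lp (Ell2 ((Γ × Γ) × ι)) 2 d.μ) x =
      mp ι (fun x : Γ × Γ => F x.1) ((JT d hT η : Lp (Ell2 ((Γ × Γ) × ι)) 2 d.μ) x) := h2
  rw [h1', h4, h2', h3]
  rfl

theorem norm_adjUT_le (ζ : Ell2 ((Γ × Γ) × ι)) : ‖adjoint (UT hT) ζ‖ ≤ ‖ζ‖ := by
  refine (ContinuousLinearMap.le_opNorm _ _).trans ?_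
  have h1 : ‖adjoint (UT hT)‖ ≤ 1 := by
    rw [LinearIsometryEquiv.norm_map]
    exact ContinuousLinearMap.opNorm_le_bound _ zero_le_one fun η => by rw [UT_norm, one_mul]
  exact mul_le_of_le_one_left (norm_nonneg _) h1

theorem norm_m0_le {F : Γ → ℝ} (hF : ∀ g, |F g| ≤ 1) :
    ‖adjoint (UT hT) ∘L (mp ι (fun x : Γ × Γ => F x.1) ∘L UT hT)‖ ≤ 1 := by
  refine ContinuousLinearMap.opNorm_le_bound _ zero_le_one fun η => ?_
  rw [one_mul]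
  refine (norm_adjUT_le hT _).trans ?_
  refine (norm_mp_le (ι := ι) (F := fun x : Γ × Γ => F x.1) (fun x => hF x.1) _).trans ?_
  rw [one_mul]
  exact (UT_norm hT η).le

/-- The normalising constant of a family. -/
noncomputable def nc (ξ : ι → ℋ) : ℂ := (((Real.sqrt (∑ j, ‖ξ j‖ ^ 2))⁻¹ : ℝ) : ℂ)

include hT in
theorem sum_pos_T : 0 < ∑ j, ‖ξ j‖ ^ 2 := by
  obtain ⟨k, hk⟩ := hT.ne
  exact Finset.sum_pos' (fun i _ => by positivity)
    ⟨k, Finset.mem_univ _, by have := norm_pos_iff.2 hk; positivity⟩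

include hT in
theorem nc_ne : nc ξ ≠ 0 := by
  rw [nc]
  have := Real.sqrt_pos.2 (sum_pos_T hT)
  exact_mod_cast (inv_pos.2 this).ne'

theorem norm_const {X : Type*} [MeasurableSpace X] (μ : Measure X) [IsProbabilityMeasure μ]
    (v : ℋ) : ‖(Lp.const 2 μ v : Lp ℋ 2 μ)‖ = ‖v‖ := by
  have h1 := Lp.norm_const (p := 2) (μ := μ) (c := v) (by norm_num)
  rw [h1]
  simp

include hT in
theorem norm_nc (i : ι) : ‖nc ξ • ξ i‖ ≤ 1 := by
  have h1 := sum_pos_T hT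
  have h2 : ‖nc ξ • ξ i‖ ^ 2 ≤ 1 := by
    rw [norm_smul, nc, Complex.norm_real, Real.norm_eq_abs, mul_pow, sq_abs, inv_pow,
      Real.sq_sqrt h1.le]
    have h3 : ‖ξ i‖ ^ 2 ≤ ∑ j, ‖ξ j‖ ^ 2 :=
      Finset.single_le_sum (f := fun j => ‖ξ j‖ ^ 2) (fun j _ => by positivity)
        (Finset.mem_univ i)
    rw [inv_mul_le_iff₀ h1]
    linarith
  nlinarith [norm_nonneg (nc ξ • ξ i)]

include hT in
theorem sum_nc {X : Type*} [MeasurableSpace X] (μ : Measure X) [IsProbabilityMeasure μ] :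
    ∑ i, ‖(Lp.const 2 μ (nc ξ • ξ i) : Lp ℋ 2 μ)‖ ^ 2 = 1 := by
  have h1 := sum_pos_T hT
  have h2 : ∀ i, ‖(Lp.const 2 μ (nc ξ • ξ i) : Lp ℋ 2 μ)‖ ^ 2 =
      (∑ j, ‖ξ j‖ ^ 2)⁻¹ * ‖ξ i‖ ^ 2 := fun i => by
    rw [norm_const, norm_smul, nc, Complex.norm_real, Real.norm_eq_abs, mul_pow, sq_abs, inv_pow,
      Real.sq_sqrt h1.le]
  simp only [h2]
  rw [← Finset.mul_sum, inv_mul_cancel₀ h1.ne']

end cf

/-! ### (UC) -/

section uc

variable {E : Type} [Group E] [TopologicalSpace E] [IsTopologicalGroup E] [LocallyCompactSpace E]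
  [SecondCountableTopology E] [T2Space E] [MeasurableSpace E] [BorelSpace E]
  {Γ : Subgroup E} [DiscreteTopology Γ] [MeasurableSpace (E ⧸ Γ)] [BorelSpace (E ⧸ Γ)]
  {ν : Measure (E ⧸ Γ)} [IsProbabilityMeasure ν] [Countable Γ]
  (hν : ∀ g : E, ν.map (fun x => g • x) = ν)
  {ℋ ι : Type} [Fintype ι] [NormedAddCommGroup ℋ] [InnerProductSpace ℂ ℋ]
  [CompleteSpace ℋ] {V R₁ R₂ : Γ →* (ℋ →L[ℂ] ℋ)} {ξ : ι → ℋ} (hT : Tri V R₁ R₂ ξ)

/-- **(UC)**, all `t`. -/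
theorem uc_T (i : ι) : SD.UC (H34.Ind.pi (H85.cdat ν hν) (V := V) hT.adjV)
    (WT (H85.cdat ν hν) R₂) (Lp.const 2 (H85.cdat ν hν).μ (nc ξ • ξ i))
    (st (mT (H85.cdat ν hν) hT)) := by
  have e : st (mT (H85.cdat ν hν) hT) = fun S : Set Γ =>
      (adjoint (UT hT) ∘L (mp ι (fun x : Γ × Γ => H553.ind (fun g => g ∈ S) x.1) ∘L
        UT hT)).compLpL 2 (H85.cdat ν hν).μ := funext fun S => mT_comp _ _ _
  rw [e]
  exact H103.uc_of hν hT.adjV (W := WT (H85.cdat ν hν) R₂) (fun A hA => Or.inl ⟨A, hA, rfl⟩)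
    (norm_nc hT i) (m₀ := fun S : Set Γ =>
      adjoint (UT hT) ∘L (mp ι (fun x : Γ × Γ => H553.ind (fun g => g ∈ S) x.1) ∘L UT hT))
    fun S => norm_m0_le hT (H553.abs_ind_le _)

end uc

/-! ### Team D -/

section teamD

open Vale.Agent.P092.SD Vale.Agent.P092.H142
open Vale.Agent.P092.H805.HalfK (pow_bw disc_sub nis_sub nis_sub')
open Vale.Agent.P092.H534.GK (ga gb bpk)

variable {k : Type} [NontriviallyNormedField k] [ProperSpace k] [LocallyCompactSpace (G3 k)]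
  [SecondCountableTopology (G3 k)] [MeasurableSpace (G3 k)] [BorelSpace (G3 k)]
  {Γ : Subgroup (G3 k)} [DiscreteTopology Γ] [Countable Γ] [MeasurableSpace (G3 k ⧸ Γ)]
  [BorelSpace (G3 k ⧸ Γ)] {ν : Measure (G3 k ⧸ Γ)} [IsProbabilityMeasure ν]
  (hν : ∀ g : G3 k, ν.map (fun x => g • x) = ν)
  {ℋ ι ι' κ : Type} [Fintype ι] [Fintype ι'] [Fintype κ] [NormedAddCommGroup ℋ]
  [InnerProductSpace ℂ ℋ] [CompleteSpace ℋ] {V R₁ R₂ : Γ →* (ℋ →L[ℂ] ℋ)} {ξ : ι → ℋ}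
  {ξ' : ι' → ℋ} (hT : Tri V R₁ R₂ ξ)
  (hΓ : ∀ g : Γ, g ≠ 1 → Set.Infinite {y : Γ | ∃ h, y = h * g * h⁻¹}) (hT' : Tri R₁ V R₂ ξ')
  (hh : Hon R₁ R₂ ξ)

include hΓ hT' hh

/-- **The source data of one leg**, all `t`. -/
theorem srcF_T {w : kˣ} (hw : ‖(w : k)‖ < 1) {Ω : κ → Lp ℋ 2 (H85.cdat ν hν).μ}
    (hP : PicF (H34.Ind.pi (H85.cdat ν hν) (V := V) hT.adjV) (H34.Ind.lam (H85.cdat ν hν) R₁)
      (WT (H85.cdat ν hν) R₂) Ω) :
    SrcF w (H34.Ind.pi (H85.cdat ν hν) (V := V) hT.adjV) (H34.Ind.lam (H85.cdat ν hν) R₁)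
      (WT (H85.cdat ν hν) R₂) Ω (fun i => Lp.const 2 (H85.cdat ν hν).μ (nc ξ • ξ i))
      (mT (H85.cdat ν hν) hT) (BdT (H85.cdat ν hν) hT) (BfT (H85.cdat ν hν) hT) where
  pic := hP
  hw := hw
  mcov := (leg_T (H85.cdat ν hν) hT hh hΓ hT').cov
  mW := (leg_T (H85.cdat ν hν) hT hh hΓ hT').Wm
  slow := slow_T (H85.cdat ν hν) hT hΓ hT' hh (H43.ccont_cdat ν hν)
  loc := loc2_T (H85.cdat ν hν) hT hΓ hT' hh
  esc := by
    rw [Subgroup.zpowers_inv]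
    exact esc_pow_inv_T hν hT hΓ hT' hh (pow_bw hw)
  esc' := by
    rw [Subgroup.zpowers_inv]
    exact esc_pow_T hν hT hΓ hT' hh (pow_bw hw)
  one := sum_nc hT _
  sym := symF_T (H85.cdat ν hν) hT hh hΓ hT' _
  fin := fun ξ ε hε => fin_T (H85.cdat ν hν) hT hh ξ hε

/-- **The boundary calculi of one leg over any local field, all `t`.** -/
theorem legs_T (hk : H933.LocK k) {w : kˣ} (hw : ‖(w : k)‖ < 1)
    {Ω : κ → Lp ℋ 2 (H85.cdat ν hν).μ}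
    (hP : PicF (H34.Ind.pi (H85.cdat ν hν) (V := V) hT.adjV) (H34.Ind.lam (H85.cdat ν hν) R₁)
      (WT (H85.cdat ν hν) R₂) Ω) :
    ∃ (q : Γ →* G3 k) (E F : PP k → (CP k →⋆ₐ[ℂ]
        (Lp ℋ 2 (H85.cdat ν hν).μ →L[ℂ] Lp ℋ 2 (H85.cdat ν hν).μ))),
      (q = Γ.subtype ∨ q = (tau k).comp Γ.subtype) ∧
      (∀ (c : ℂ) (i : ι), NWS w (H34.Ind.pi (H85.cdat ν hν) (V := V) hT.adjV)
        (Lp.const 2 (H85.cdat ν hν).μ (c • ξ i)) (st (mT (H85.cdat ν hν) hT)) q) ∧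
      EFam w (H34.Ind.pi (H85.cdat ν hν) (V := V) hT.adjV) (H34.Ind.lam (H85.cdat ν hν) R₁)
        (WT (H85.cdat ν hν) R₂) (st (mT (H85.cdat ν hν) hT)) q E ∧
      EFam w ((H34.Ind.pi (H85.cdat ν hν) (V := V) hT.adjV).comp (tau k))
        (H34.Ind.lam (H85.cdat ν hν) R₁) (WT (H85.cdat ν hν) R₂)
        (st (mT (H85.cdat ν hν) hT)) ((tau k).comp q) F := by
  have hdisc : ∀ C : ℝ, {γ : Γ | nm (Γ.subtype γ) ≤ C}.Finite := disc_sub Γ
  have hdisc' := H534.GK.disc_tau Γ.subtype hdisc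
  have e1 : (fun γ : Γ => ga (((tau k).comp Γ.subtype) γ)) = fun γ => gb (Γ.subtype γ) :=
    funext fun γ => H534.GK.ga_tau _
  have e2 : (fun γ : Γ => gb (((tau k).comp Γ.subtype) γ)) = fun γ => ga (Γ.subtype γ) :=
    funext fun γ => H534.GK.gb_tau _
  have hG := H534.GK.geoF Γ.subtype hdisc
  have hG' := H534.GK.geoF ((tau k).comp Γ.subtype) hdisc'
  have hc' : DomCut ((tau k).comp Γ.subtype) (fun γ => ga (((tau k).comp Γ.subtype) γ))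
      (fun γ => gb (((tau k).comp Γ.subtype) γ)) (fun γ => bpk (((tau k).comp Γ.subtype) γ)) :=
    fun r => ⟨Real.exp r, H534.GK.cone_sub ((tau k).comp Γ.subtype) r⟩
  rw [e1, e2] at hG' hc'
  have S := srcF_T hν hT hΓ hT' hh hw hP
  have hgap : ∀ s u : Γ, ∃ C, ∀ x, |(fun γ : Γ => ga (Γ.subtype γ)) (s * x * u) -
      (fun γ : Γ => ga (Γ.subtype γ)) x| ≤ C ∧ |(fun γ : Γ => gb (Γ.subtype γ)) (s * x * u) -
      (fun γ : Γ => gb (Γ.subtype γ)) x| ≤ C := by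
    letI := MulAction.compHom (PP k) Γ.subtype
    exact hG.gap
  have hs := sysF_T (A := Subgroup.zpowers (bw w : G3 k)) (H85.cdat ν hν) hT hΓ hT' hh hgap
    fun ε hε => H534.GK.nrm_bwK Γ ν hν hk (arepT hT hΓ hT') (covFamT hT hT') (ET_lx hT hT') hw
      Γ.subtype hdisc hε
  rw [← Subgroup.zpowers_inv] at hs
  obtain ⟨q, hq, hn, E, F, hE, hF⟩ := disF S hs hG
    (fun r => ⟨Real.exp r, H534.GK.cone_sub Γ.subtype r⟩) (nis_sub hν) hG' hc' (nis_sub' hν)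
    (fun r => ⟨Real.exp r, fun γ h => H534.GK.nw_of_gb h⟩)
    (fun r => ⟨Real.exp r, fun γ h => H534.GK.nw_of_gb (by
      have e3 : gb (((tau k).comp Γ.subtype) γ) = ga (Γ.subtype γ) := H534.GK.gb_tau _
      rw [e3]
      exact h)⟩) (C := 0) (fun g => by
      have e3 : Γ.subtype g⁻¹ = (Γ.subtype g)⁻¹ := map_inv _ _
      rw [e3, H534.GK.ga_inv, H534.GK.gb_inv, sub_self, sub_self, abs_zero]
      exact ⟨le_rfl, le_rfl⟩)
  refine ⟨q, E, F, hq, fun c i => ?_, hE, hF⟩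
  have h1 := hn c _ (bf_T (H85.cdat ν hν) hT (arepT hT hΓ hT')
    (H805.Row.bf_sub (H85.cdat ν hν)) i)
  exact h1

end teamD

end Vale.Agent.P092.H21
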